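import Vale.Agent.N111.Converse

/-!
The quantitative Maurey-Pisier theorem for cotype: a normed space without an almost isometric copy
of the unit vector basis of `ℓ_∞^k` has cotype `q` with constant `C`, where `q`, `C` depend only on
`k` and on the accuracy.
-/

set_option linter.unusedSectionVars false

namespace Vale.Agent.N111L

open Finset Vale.Agent.P111

universe u

/-- `k` vectors of norm almost one, all of whose signed sums have norm almost at most one. -/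
def Near (k : ℕ) (ε : ℝ) (Y : Type*) [NormedAddCommGroup Y] [NormedSpace ℝ Y] : Prop :=
  ∃ y : Fin k → Y, (∀ i, 1 - ε ≤ ‖y i‖) ∧ ∀ δ : Fin k → ℤˣ, ‖∑ i, sg (δ i) • y i‖ ≤ 1 + ε

/-- The cotype two inequality for `n` vectors, with constant `√c`. -/
def Sub (Y : Type*) [NormedAddCommGroup Y] [NormedSpace ℝ Y] (n : ℕ) (c : ℝ) : Prop :=
  ∀ y : Fin n → Y, ∑ i, ‖y i‖ ^ 2 ≤ c * H1.rsq y

section

variable {Y : Type*} [NormedAddCommGroup Y] [NormedSpace ℝ Y]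

theorem norm_le_avg {n : ℕ} (y : Fin n → Y) (i : Fin n) :
    ‖y i‖ ≤ avg fun δ : Fin n → ℤˣ => ‖∑ j, sg (δ j) • y j‖ := by
  conv_lhs => rw [← SY.wc_const_sum y i]
  unfold wc
  refine (H1.norm_avg_le _).trans (le_of_eq (avg_congr fun δ => ?_))
  rw [walsh_singleton, H1.norm_sg_smul]

theorem avg_sq_le {n : ℕ} (y : Fin n → Y) :
    (avg fun δ : Fin n → ℤˣ => ‖∑ j, sg (δ j) • y j‖) ^ 2 ≤ H1.rsq y :=
  H1.sq_avg_le _

theorem norm_sq_le_rsq {n : ℕ} (y : Fin n → Y) (i : Fin n) : ‖y i‖ ^ 2 ≤ H1.rsq y :=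
  (pow_le_pow_left₀ (norm_nonneg _) (norm_le_avg y i) 2).trans (avg_sq_le y)

theorem le_card_mul_avg {Ω : Type*} [Fintype Ω] (f : Ω → ℝ) (hf : ∀ ω, 0 ≤ f ω) (ω : Ω) :
    f ω ≤ Fintype.card Ω * avg f := by
  haveI : Nonempty Ω := ⟨ω⟩
  rw [← sum_eq_card_mul_avg]
  exact Finset.single_le_sum (fun x _ => hf x) (Finset.mem_univ ω)

theorem rsq_smul {n : ℕ} (c : ℝ) (y : Fin n → Y) :
    H1.rsq (fun i => c • y i) = c ^ 2 * H1.rsq y := by
  unfold H1.rsq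
  rw [← avg_mul_left]
  refine avg_congr fun δ => ?_
  simp only [smul_comm (sg _) c]
  rw [← Finset.smul_sum, norm_smul, mul_pow, Real.norm_eq_abs, sq_abs]

/-- The gain. -/
theorem sub_of_not_near {k : ℕ} {ε η : ℝ} (hε : 0 < ε) (hη : 0 < η) (h1 : η ≤ ε)
    (h2 : 2 ^ k * η ≤ ε ^ 2) (hη1 : η ≤ 1) (h : ¬ Near k ε Y) : Sub Y k (k - η) := by
  intro y
  by_contra hcon
  push Not at hcon
  apply h
  have hR0 : 0 ≤ H1.rsq y := H1.rsq_nonneg y
  have hRpos : 0 < H1.rsq y := by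
    rcases hR0.eq_or_lt with h0 | h0
    · exfalso
      have h3 : ∑ i, ‖y i‖ ^ 2 ≤ ∑ _i : Fin k, (0:ℝ) :=
        Finset.sum_le_sum fun i _ => (norm_sq_le_rsq y i).trans h0.ge
      rw [← h0] at hcon
      simp at h3 hcon
      linarith
    · exact h0
  set R := √(H1.rsq y) with hR
  have hRp : 0 < R := Real.sqrt_pos.2 hRpos
  have hRsq : R ^ 2 = H1.rsq y := Real.sq_sqrt hR0
  set z : Fin k → Y := fun i => R⁻¹ • y i with hz
  have hz1 : H1.rsq z = 1 := by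
    rw [hz, rsq_smul, ← hRsq]
    field_simp
  have hz2 : (k : ℝ) - η < ∑ i, ‖z i‖ ^ 2 := by
    have h3 : ∑ i, ‖z i‖ ^ 2 = (R ^ 2)⁻¹ * ∑ i, ‖y i‖ ^ 2 := by
      rw [Finset.mul_sum]
      refine Finset.sum_congr rfl fun i _ => ?_
      rw [hz]
      simp only [norm_smul, norm_inv, Real.norm_eq_abs, abs_of_pos hRp]
      ring
    rw [h3, hRsq, ← div_eq_inv_mul, lt_div_iff₀ hRpos]
    exact hcon
  have hz3 : ∀ i, ‖z i‖ ^ 2 ≤ 1 := fun i => (norm_sq_le_rsq z i).trans hz1.le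
  have hz4 : ∀ i, 1 - η ≤ ‖z i‖ ^ 2 := by
    intro i
    have h3 : ∑ j, (1 - ‖z j‖ ^ 2) < η := by
      rw [Finset.sum_sub_distrib]
      simp
      linarith
    have h4 : 1 - ‖z i‖ ^ 2 ≤ ∑ j, (1 - ‖z j‖ ^ 2) :=
      Finset.single_le_sum (f := fun j => 1 - ‖z j‖ ^ 2) (fun j _ => by linarith [hz3 j])
        (Finset.mem_univ i)
    linarith
  refine ⟨z, fun i => ?_, fun δ => ?_⟩
  · have h3 : ‖z i‖ ≤ 1 := by nlinarith [hz3 i, norm_nonneg (z i)]
    nlinarith [hz4 i, norm_nonneg (z i)]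
  · rcases Nat.eq_zero_or_pos k with rfl | hk
    · simp
      linarith
    set μ := avg fun δ : Fin k → ℤˣ => ‖∑ j, sg (δ j) • z j‖ with hμ
    have hμ0 : 0 ≤ μ := avg_nonneg fun _ => norm_nonneg _
    have hμ1 : μ ^ 2 ≤ 1 := (avg_sq_le z).trans hz1.le
    have hμ2 : 1 - η ≤ μ ^ 2 :=
      (hz4 ⟨0, hk⟩).trans (pow_le_pow_left₀ (norm_nonneg _) (norm_le_avg z _) 2)
    have hvar : (avg fun δ : Fin k → ℤˣ => (‖∑ j, sg (δ j) • z j‖ - μ) ^ 2) = 1 - μ ^ 2 := by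
      have e : ∀ δ : Fin k → ℤˣ, (‖∑ j, sg (δ j) • z j‖ - μ) ^ 2 =
          ‖∑ j, sg (δ j) • z j‖ ^ 2 - 2 * μ * ‖∑ j, sg (δ j) • z j‖ + μ ^ 2 := fun δ => by ring
      rw [avg_congr e, avg_add, avg_sub, avg_mul_left, avg_const, ← hμ]
      have : (avg fun δ : Fin k → ℤˣ => ‖∑ j, sg (δ j) • z j‖ ^ 2) = 1 := hz1
      rw [this]
      ring
    have h3 := le_card_mul_avg (fun δ : Fin k → ℤˣ => (‖∑ j, sg (δ j) • z j‖ - μ) ^ 2)
      (fun _ => sq_nonneg _) δ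
    rw [hvar] at h3
    have h4 : (Fintype.card (Fin k → ℤˣ) : ℝ) = 2 ^ k := by simp
    rw [h4] at h3
    have h5 : (‖∑ j, sg (δ j) • z j‖ - μ) ^ 2 ≤ ε ^ 2 :=
      h3.trans ((mul_le_mul_of_nonneg_left (by linarith) (by positivity)).trans h2)
    have h6 := (abs_le_of_sq_le_sq' h5 hε.le).2
    have h7 : μ ≤ 1 := by nlinarith
    linarith

theorem Sub.mul {m k : ℕ} {β γ : ℝ} (hβ : 0 ≤ β) (hγ : 0 ≤ γ) (hm : Sub Y m β) (hk : Sub Y k γ) :
    Sub Y (m * k) (β * γ) := by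
  intro x
  set e : Fin m × Fin k ≃ Fin (m * k) := finProdFinEquiv with he
  let E : (Fin m → Fin k → ℤˣ) ≃ (Fin (m * k) → ℤˣ) :=
    (Equiv.curry (Fin m) (Fin k) ℤˣ).symm.trans (Equiv.arrowCongr e (Equiv.refl _))
  have hE : ∀ (η : Fin m → Fin k → ℤˣ) (i : Fin m) (j : Fin k), E η (e (i, j)) = η i j := by
    intro η i j
    simp [E]
  have h1 : H1.rsq x =
      avg fun η : Fin m → Fin k → ℤˣ => ‖∑ i, ∑ j, sg (η i j) • x (e (i, j))‖ ^ 2 := by
    unfold H1.rsq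
    rw [← avg_comp_equiv E]
    refine avg_congr fun η => ?_
    rw [← e.sum_comp, Fintype.sum_prod_type]
    simp_rw [hE]
  have h2 : ∀ θ : Fin m → ℤˣ,
      (avg fun η : Fin m → Fin k → ℤˣ => ‖∑ i, ∑ j, sg (η i j) • x (e (i, j))‖ ^ 2) =
      avg fun η : Fin m → Fin k → ℤˣ =>
        ‖∑ i, sg (θ i) • ∑ j, sg (η i j) • x (e (i, j))‖ ^ 2 := by
    intro θ
    let T : (Fin m → Fin k → ℤˣ) ≃ (Fin m → Fin k → ℤˣ) :=
      Equiv.mulLeft fun i _ => θ i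
    rw [← avg_comp_equiv T (fun η : Fin m → Fin k → ℤˣ =>
      ‖∑ i, ∑ j, sg (η i j) • x (e (i, j))‖ ^ 2)]
    refine avg_congr fun η => ?_
    have h3 : ∀ i, ∑ j, sg ((T η) i j) • x (e (i, j)) =
        sg (θ i) • ∑ j, sg (η i j) • x (e (i, j)) := by
      intro i
      rw [Finset.smul_sum]
      refine Finset.sum_congr rfl fun j _ => ?_
      have h4 : (T η) i j = θ i * η i j := rfl
      rw [h4, smul_smul]
      congr 1
      simp [sg]
    simp_rw [h3]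
  have h5 : (avg fun η : Fin m → Fin k → ℤˣ => ‖∑ i, ∑ j, sg (η i j) • x (e (i, j))‖ ^ 2) =
      avg fun η : Fin m → Fin k → ℤˣ => avg fun θ : Fin m → ℤˣ =>
        ‖∑ i, sg (θ i) • ∑ j, sg (η i j) • x (e (i, j))‖ ^ 2 := by
    rw [avg_comm]
    have h6 := avg_const (Ω := Fin m → ℤˣ)
      (avg fun η : Fin m → Fin k → ℤˣ => ‖∑ i, ∑ j, sg (η i j) • x (e (i, j))‖ ^ 2)
    rw [← h6]
    exact avg_congr fun θ => h2 θ
  have h7 : (avg fun η : Fin m → Fin k → ℤˣ => ∑ i, ‖∑ j, sg (η i j) • x (e (i, j))‖ ^ 2) ≤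
      β * H1.rsq x := by
    rw [h1, h5, ← avg_mul_left]
    exact avg_mono fun η => hm fun i => ∑ j, sg (η i j) • x (e (i, j))
  rw [avg_sum] at h7
  have h8 : ∀ i, ∑ j, ‖x (e (i, j))‖ ^ 2 ≤ γ * avg fun η : Fin m → Fin k → ℤˣ =>
      ‖∑ j, sg (η i j) • x (e (i, j))‖ ^ 2 := by
    intro i
    rw [R2.H351.av_marginal i fun ζ : Fin k → ℤˣ => ‖∑ j, sg (ζ j) • x (e (i, j))‖ ^ 2]
    exact hk fun j => x (e (i, j))
  calc ∑ l, ‖x l‖ ^ 2 = ∑ i, ∑ j, ‖x (e (i, j))‖ ^ 2 := by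
        rw [← e.sum_comp, Fintype.sum_prod_type]
    _ ≤ ∑ i, γ * avg fun η : Fin m → Fin k → ℤˣ => ‖∑ j, sg (η i j) • x (e (i, j))‖ ^ 2 :=
        Finset.sum_le_sum fun i _ => h8 i
    _ ≤ γ * (β * H1.rsq x) := by
        rw [← Finset.mul_sum]
        exact mul_le_mul_of_nonneg_left h7 hγ
    _ = _ := by ring

theorem Sub.pow {m : ℕ} {β : ℝ} (hβ : 0 ≤ β) (hm : Sub Y m β) :
    ∀ j : ℕ, Sub Y (m ^ j) (β ^ j) := by
  intro j
  induction j with
  | zero =>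
    rw [pow_zero, pow_zero]
    intro y
    rw [Fin.sum_univ_one, one_mul]
    exact norm_sq_le_rsq y 0
  | succ j ih =>
    have h := Sub.mul (pow_nonneg hβ j) hβ ih hm
    rwa [← pow_succ, ← pow_succ] at h

/-- Subfamilies have smaller random sign averages. -/
theorem rsq_comp_le {n N : ℕ} (y : Fin n → Y) (f : Fin N → Fin n) (hf : Function.Injective f) :
    H1.rsq (fun j => y (f j)) ≤ H1.rsq y := by
  classical
  have h1 := H1.rsq_contract (fun i => if i ∈ Finset.univ.image f then (1:ℝ) else 0)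
    (fun i => by split_ifs <;> simp) y
  refine le_trans (le_of_eq ?_) h1
  unfold H1.rsq
  rw [← H1.avg_cube_comp f hf]
  refine avg_congr fun δ => ?_
  congr 2
  have h2 : ∑ i, sg (δ i) • (if i ∈ Finset.univ.image f then (1:ℝ) else 0) • y i =
      ∑ i ∈ Finset.univ.image f, sg (δ i) • y i := by
    rw [← Finset.sum_filter_add_sum_filter_not Finset.univ (fun i => i ∈ Finset.univ.image f)]
    have h3 : ∑ i ∈ Finset.univ.filter (fun i => ¬ i ∈ Finset.univ.image f),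
        sg (δ i) • (if i ∈ Finset.univ.image f then (1:ℝ) else 0) • y i = 0 := by
      refine Finset.sum_eq_zero fun i hi => ?_
      rw [if_neg (Finset.mem_filter.1 hi).2]
      simp
    rw [h3, add_zero, Finset.filter_mem_eq_inter, Finset.univ_inter]
    refine Finset.sum_congr rfl fun i hi => ?_
    rw [if_pos hi, one_smul]
  rw [h2, Finset.sum_image fun a _ b _ hab => hf hab]

/-- Few vectors are long. -/
theorem card_lt {N : ℕ} {θ : ℝ} (hθ : 0 ≤ θ) (h : Sub Y N (N * θ)) (hN : 0 < N) {n : ℕ}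
    (y : Fin n → Y) : #(Finset.univ.filter fun i => θ * H1.rsq y < ‖y i‖ ^ 2) < N := by
  by_contra hcon
  push Not at hcon
  obtain ⟨I, hI, hIc⟩ := Finset.exists_subset_card_eq hcon
  let e : Fin N ≃ I := (I.equivFinOfCardEq hIc).symm
  have hf : Function.Injective fun j => (e j : Fin n) :=
    Subtype.val_injective.comp e.injective
  have h1 := h fun j => y (e j)
  have h2 := rsq_comp_le y _ hf
  haveI : Nonempty (Fin N) := ⟨⟨0, hN⟩⟩
  have h3 : ∑ _j : Fin N, θ * H1.rsq y < ∑ j, ‖y (e j)‖ ^ 2 :=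
    Finset.sum_lt_sum_of_nonempty Finset.univ_nonempty fun j _ =>
      (Finset.mem_filter.1 (hI (e j).2)).2
  rw [Finset.sum_const, Finset.card_univ, Fintype.card_fin, nsmul_eq_mul] at h3
  have h4 : (N : ℝ) * θ * H1.rsq (fun j => y (e j)) ≤ N * θ * H1.rsq y :=
    mul_le_mul_of_nonneg_left h2 (by positivity)
  linarith

theorem sum_pow_le {k s : ℕ} {θ : ℝ} (hk : 0 < k) (hθ0 : 0 < θ) (hθ1 : θ < 1)
    (hs0 : s ≠ 0) (hs : k * θ ^ s ≤ 1 / 2) (h : Sub Y k (k * θ)) {n : ℕ} (y : Fin n → Y) :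
    ∑ i, (‖y i‖ ^ 2) ^ s ≤ 2 * k * H1.rsq y ^ s := by
  classical
  set R := H1.rsq y with hR
  have hR0 : 0 ≤ R := H1.rsq_nonneg y
  have hlev : ∀ j : ℕ, (#(Finset.univ.filter fun i => θ ^ j * R < ‖y i‖ ^ 2) : ℝ) ≤ k ^ j := by
    intro j
    have h1 := Sub.pow (by positivity) h j
    rw [mul_pow, ← Nat.cast_pow] at h1
    exact_mod_cast (card_lt (by positivity) h1 (pow_pos hk j) y).le
  have hex : ∀ i, ∃ j : ℕ, ‖y i‖ ≠ 0 → θ ^ (j + 1) * R < ‖y i‖ ^ 2 ∧ ‖y i‖ ^ 2 ≤ θ ^ j * R := by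
    intro i
    by_cases hi : ‖y i‖ = 0
    · exact ⟨0, fun h => absurd hi h⟩
    have h0 : 0 < ‖y i‖ ^ 2 := by positivity
    have h1 : ‖y i‖ ^ 2 ≤ R := norm_sq_le_rsq y i
    have hRp : 0 < R := h0.trans_le h1
    obtain ⟨j, hj1, hj2⟩ := exists_nat_pow_near_of_lt_one (x := ‖y i‖ ^ 2 / R)
      (div_pos h0 hRp) ((div_le_one hRp).2 h1) hθ0 hθ1
    exact ⟨j, fun _ => ⟨(lt_div_iff₀ hRp).1 hj1, (div_le_iff₀ hRp).1 hj2⟩⟩
  choose J hJ using hex
  set L := Finset.univ.sup J + 1 with hL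
  have hJL : ∀ i, J i ∈ Finset.range L := fun i =>
    Finset.mem_range.2 (Nat.lt_succ_of_le (Finset.le_sup (Finset.mem_univ i)))
  have h1 : ∀ i, (‖y i‖ ^ 2) ^ s ≤ ∑ j ∈ Finset.range L,
      if θ ^ (j + 1) * R < ‖y i‖ ^ 2 then (θ ^ j * R) ^ s else 0 := by
    intro i
    have hnn : ∀ j ∈ Finset.range L,
        0 ≤ if θ ^ (j + 1) * R < ‖y i‖ ^ 2 then (θ ^ j * R) ^ s else 0 := by
      intro j _
      split_ifs
      · positivity
      · exact le_rfl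
    by_cases hi : ‖y i‖ = 0
    · rw [hi]
      simp only [ne_eq, OfNat.ofNat_ne_zero, not_false_eq_true, zero_pow, zero_pow hs0]
      rw [hi] at hnn
      simpa using Finset.sum_nonneg hnn
    · obtain ⟨h2, h3⟩ := hJ i hi
      refine le_trans ?_ (Finset.single_le_sum hnn (hJL i))
      rw [if_pos h2]
      exact pow_le_pow_left₀ (by positivity) h3 s
  calc ∑ i, (‖y i‖ ^ 2) ^ s ≤ ∑ i, ∑ j ∈ Finset.range L,
        if θ ^ (j + 1) * R < ‖y i‖ ^ 2 then (θ ^ j * R) ^ s else 0 :=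
        Finset.sum_le_sum fun i _ => h1 i
    _ = ∑ j ∈ Finset.range L, (#(Finset.univ.filter fun i => θ ^ (j + 1) * R < ‖y i‖ ^ 2) : ℝ) *
          (θ ^ j * R) ^ s := by
        rw [Finset.sum_comm]
        refine Finset.sum_congr rfl fun j _ => ?_
        rw [← Finset.sum_filter, Finset.sum_const, nsmul_eq_mul]
    _ ≤ ∑ j ∈ Finset.range L, k * R ^ s * (1 / 2) ^ j := by
        refine Finset.sum_le_sum fun j _ => ?_
        calc _ ≤ (k : ℝ) ^ (j + 1) * (θ ^ j * R) ^ s :=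
              mul_le_mul_of_nonneg_right (hlev (j + 1)) (by positivity)
          _ = k * R ^ s * (k * θ ^ s) ^ j := by
              rw [mul_pow, mul_pow, ← pow_mul, ← pow_mul, mul_comm j s]
              ring
          _ ≤ _ := by gcongr
    _ ≤ 2 * k * R ^ s := by
        rw [← Finset.mul_sum]
        have h2 : ∑ j ∈ Finset.range L, (1 / 2 : ℝ) ^ j ≤ 2 := sum_geometric_two_le L
        calc _ ≤ (k : ℝ) * R ^ s * 2 := by gcongr
          _ = _ := by ring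

end

/-- **Maurey-Pisier**, with uniform constants. -/
theorem cotype_of_not_near (k : ℕ) {ε : ℝ} (hε : 0 < ε) : ∃ q C : ℝ, 2 ≤ q ∧ 0 ≤ C ∧
    ∀ (Y : Type u) [NormedAddCommGroup Y] [NormedSpace ℝ Y], ¬ Near k ε Y →
      CotypeWith q C Y := by
  rcases Nat.eq_zero_or_pos k with rfl | hk
  · refine ⟨2, 0, le_rfl, le_rfl, fun Y _ _ h => absurd ⟨fun i => i.elim0, fun i => i.elim0,
      fun δ => ?_⟩ h⟩
    simp
    linarith
  have hk1 : (1:ℝ) ≤ k := by exact_mod_cast hk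
  set η : ℝ := min (min ε (ε ^ 2 / 2 ^ k)) (1 / 2) with hη
  have hη0 : 0 < η := lt_min (lt_min hε (by positivity)) (by norm_num)
  have hη1 : η ≤ ε := (min_le_left _ _).trans (min_le_left _ _)
  have hη2 : 2 ^ k * η ≤ ε ^ 2 := by
    have : η ≤ ε ^ 2 / 2 ^ k := (min_le_left _ _).trans (min_le_right _ _)
    rwa [le_div_iff₀ (by positivity), mul_comm] at this
  have hη3 : η ≤ 1 / 2 := min_le_right _ _
  set θ : ℝ := 1 - η / k with hθ
  have h1 : η / k ≤ η := div_le_self hη0.le hk1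
  have hθ0 : 0 < θ := by linarith
  have hθ1 : θ < 1 := by
    have : 0 < η / k := by positivity
    linarith
  obtain ⟨s₀, hs₀⟩ := exists_pow_lt_of_lt_one (show (0:ℝ) < 1 / (2 * k) by positivity) hθ1
  set s := s₀ + 1 with hs
  have hs1 : (k : ℝ) * θ ^ s ≤ 1 / 2 := by
    have h2 : θ ^ s ≤ θ ^ s₀ := pow_le_pow_of_le_one hθ0.le hθ1.le (by omega)
    have h3 : θ ^ s ≤ 1 / (2 * k) := h2.trans hs₀.le
    calc (k : ℝ) * θ ^ s ≤ k * (1 / (2 * k)) := by gcongr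
      _ = 1 / 2 := by field_simp
  have hs2 : (1:ℝ) ≤ s := by
    rw [hs]
    push_cast
    linarith [Nat.cast_nonneg (α := ℝ) s₀]
  refine ⟨2 * s, 2 * k, by linarith, by positivity, fun Y _ _ h n y => ?_⟩
  have h2 := sub_of_not_near hε hη0 hη1 hη2 (by linarith) h
  have h3 : (k : ℝ) - η = k * θ := by
    rw [hθ]
    field_simp
  rw [h3] at h2
  have h4 := sum_pow_le hk hθ0 hθ1 (by omega) hs1 h2 y
  have h5 : ∀ i, ‖y i‖ ^ (2 * (s : ℝ)) = (‖y i‖ ^ 2) ^ s := by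
    intro i
    rw [← pow_mul, ← Real.rpow_natCast]
    push_cast
    rfl
  simp only [h5]
  have hR0 : 0 ≤ H1.rsq y := H1.rsq_nonneg y
  change _ ≤ 2 * k * H1.rsq y ^ (1 / 2 : ℝ)
  have hq0 : (0:ℝ) < 2 * s := by linarith
  calc (∑ i, (‖y i‖ ^ 2) ^ s) ^ (1 / (2 * (s:ℝ))) ≤ (2 * k * H1.rsq y ^ s) ^ (1 / (2 * (s:ℝ))) :=
        Real.rpow_le_rpow (Finset.sum_nonneg fun i _ => by positivity) h4 (by positivity)
    _ = (2 * k) ^ (1 / (2 * (s:ℝ))) * H1.rsq y ^ (1 / 2 : ℝ) := by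
        rw [Real.mul_rpow (by positivity) (by positivity), ← Real.rpow_natCast,
          ← Real.rpow_mul hR0]
        congr 2
        field_simp
    _ ≤ 2 * k * H1.rsq y ^ (1 / 2 : ℝ) := by
        refine mul_le_mul_of_nonneg_right ?_ (Real.rpow_nonneg hR0 _)
        conv_rhs => rw [← Real.rpow_one (2 * k)]
        refine Real.rpow_le_rpow_of_exponent_le (by linarith) ?_
        rw [div_le_one hq0]
        linarith

end Vale.Agent.N111L
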