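import Vale.Agent.N111L.Defs
import Vale.Agent.N111L.MP

/-!
Complemented copies from factorizations, and the copies of `ℓ_∞^k` and `ℓ₁^k`.
-/

set_option linter.unusedSectionVars false

namespace Vale.Agent.N111L

open Finset Vale.Agent.P111
open scoped ENNReal

variable {X : Type*} [NormedAddCommGroup X] [NormedSpace ℝ X]

theorem HasCopy.mono {p : ℝ≥0∞} [Fact (1 ≤ p)] {n : ℕ} {D C D' C' : ℝ} (h : HasCopy X p n D C)
    (hD : D ≤ D') (hC : C ≤ C') : HasCopy X p n D' C' := by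
  obtain ⟨P, T, h1, h2, h3⟩ := h
  exact ⟨P, T, h1, h2.trans hC, h3.trans hD⟩

theorem copy_of_inverse {p : ℝ≥0∞} [Fact (1 ≤ p)] {n : ℕ}
    (a : (PiLp p fun _ : Fin n => ℝ) →L[ℝ] X) (b : X →L[ℝ] PiLp p fun _ : Fin n => ℝ)
    (hba : ∀ v, b (a v) = v) {A B L : ℝ} (hA0 : 0 ≤ A) (hB0 : 0 ≤ B) (hL0 : 0 ≤ L)
    (hA : ∀ v, ‖a v‖ ≤ A * ‖v‖) (hB : ∀ x, ‖b x‖ ≤ B * ‖x‖) (hL : ∀ v, ‖v‖ ≤ L * ‖a v‖) :
    HasCopy X p n (L * A) (A * B) := by
  set P : X →L[ℝ] X := a ∘L b with hP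
  have hmem : ∀ v, a v ∈ P.range := fun v => ⟨a v, by simp [hP, hba]⟩
  let f : P.range →L[ℝ] PiLp p fun _ : Fin n => ℝ := b ∘L P.range.subtypeL
  let g : (PiLp p fun _ : Fin n => ℝ) →L[ℝ] P.range := a.codRestrict P.range hmem
  have hfg : ∀ v, f (g v) = v := fun v => hba v
  have hgf : ∀ x, g (f x) = x := by
    rintro ⟨x, w, rfl⟩
    apply Subtype.ext
    change a (b (a (b w))) = a (b w)
    rw [hba]
  refine ⟨P, ContinuousLinearEquiv.equivOfInverse f g hgf hfg, ?_, ?_, ?_⟩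
  · ext x
    simp [hP, hba]
  · refine ContinuousLinearMap.opNorm_le_bound _ (by positivity) fun x => ?_
    calc ‖a (b x)‖ ≤ A * ‖b x‖ := hA _
      _ ≤ A * (B * ‖x‖) := mul_le_mul_of_nonneg_left (hB x) hA0
      _ = _ := by ring
  · refine mul_le_mul ?_ ?_ (ContinuousLinearMap.opNorm_nonneg _) hL0
    · refine ContinuousLinearMap.opNorm_le_bound _ hL0 fun x => ?_
      change ‖f x‖ ≤ L * ‖x‖
      have h1 := hL (f x)
      have h2 : a (f x) = (x : X) := congrArg Subtype.val (hgf x)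
      rwa [h2] at h1
    · exact ContinuousLinearMap.opNorm_le_bound _ hA0 fun v => hA v

theorem copy_of_lower {p : ℝ≥0∞} [Fact (1 ≤ p)] {n : ℕ}
    (a : (PiLp p fun _ : Fin n => ℝ) →L[ℝ] X) (b : X →L[ℝ] PiLp p fun _ : Fin n => ℝ)
    {A B L c : ℝ} (hA0 : 0 ≤ A) (hB0 : 0 ≤ B) (hL0 : 0 ≤ L) (hc : 0 < c)
    (hA : ∀ v, ‖a v‖ ≤ A * ‖v‖) (hB : ∀ x, ‖b x‖ ≤ B * ‖x‖) (hL : ∀ v, ‖v‖ ≤ L * ‖a v‖)
    (hlow : ∀ v, c * ‖v‖ ≤ ‖b (a v)‖) : HasCopy X p n (L * A) (A * (B / c)) := by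
  set M := (b ∘L a).toLinearMap with hM
  have hinj : Function.Injective M := by
    rw [← LinearMap.ker_eq_bot, LinearMap.ker_eq_bot']
    intro v hv
    have h1 := hlow v
    have h2 : b (a v) = 0 := hv
    rw [h2, norm_zero] at h1
    exact norm_le_zero_iff.1 (by nlinarith [norm_nonneg v])
  let e := LinearEquiv.ofInjectiveEndo M hinj
  have he : ∀ v, e v = b (a v) := fun v => rfl
  let N := LinearMap.toContinuousLinearMap e.symm.toLinearMap
  refine copy_of_inverse a (N ∘L b) (fun v => ?_) hA0 (by positivity) hL0 hA (fun x => ?_) hL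
  · change e.symm (b (a v)) = v
    rw [← he, e.symm_apply_apply]
  · change ‖e.symm (b x)‖ ≤ _
    have h1 := hlow (e.symm (b x))
    rw [← he, e.apply_symm_apply] at h1
    rw [div_mul_eq_mul_div, le_div_iff₀ hc, mul_comm]
    exact h1.trans (hB x)

theorem exists_signs {k : ℕ} (t : Fin k → ℝ) :
    ∃ δ : Fin k → ℤˣ, ∑ i, |t i| = ∑ i, sg (δ i) * t i := by
  refine ⟨fun i => if 0 ≤ t i then 1 else -1, Finset.sum_congr rfl fun i _ => ?_⟩
  dsimp only
  split_ifs with h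
  · rw [sg_one, one_mul, abs_of_nonneg h]
  · rw [sg_neg_one, abs_of_neg (not_le.1 h)]
    ring

theorem row_le {k : ℕ} {ε : ℝ} (m : Fin k → ℝ) (j : Fin k) (h1 : ∑ i, |m i| ≤ 1 + ε)
    (h2 : 1 - 2 * ε ≤ m j) (hε : 0 ≤ ε) : ∑ i, |(if i = j then 1 else 0) - m i| ≤ 5 * ε := by
  rw [← Finset.add_sum_erase _ _ (Finset.mem_univ j)] at h1 ⊢
  have h3 : ∑ i ∈ Finset.univ.erase j, |(if i = j then 1 else 0) - m i| =
      ∑ i ∈ Finset.univ.erase j, |m i| := by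
    refine Finset.sum_congr rfl fun i hi => ?_
    rw [if_neg (Finset.ne_of_mem_erase hi), zero_sub, abs_neg]
  rw [h3, if_pos rfl]
  have h4 : 0 ≤ ∑ i ∈ Finset.univ.erase j, |m i| := Finset.sum_nonneg fun _ _ => abs_nonneg _
  have h5 := le_abs_self (m j)
  have h6 : |1 - m j| ≤ 2 * ε := by
    rw [abs_le]
    constructor <;> linarith
  linarith

/-- The map `v ↦ ∑ v_i y_i`. -/
noncomputable def comb (p : ℝ≥0∞) [Fact (1 ≤ p)] {k : ℕ} (y : Fin k → X) :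
    (PiLp p fun _ : Fin k => ℝ) →L[ℝ] X :=
  ∑ i, (PiLp.proj p (fun _ : Fin k => ℝ) i : _ →L[ℝ] ℝ).smulRight (y i)

theorem comb_apply (p : ℝ≥0∞) [Fact (1 ≤ p)] {k : ℕ} (y : Fin k → X)
    (v : PiLp p fun _ : Fin k => ℝ) : comb p y v = ∑ i, v i • y i := by
  simp [comb]

/-- The map `x ↦ (φ_i x)_i`. -/
noncomputable def evals (p : ℝ≥0∞) [Fact (1 ≤ p)] {k : ℕ} (φ : Fin k → (X →L[ℝ] ℝ)) :
    X →L[ℝ] PiLp p fun _ : Fin k => ℝ :=
  (PiLp.continuousLinearEquiv p ℝ fun _ : Fin k => ℝ).symm.toContinuousLinearMap ∘L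
    ContinuousLinearMap.pi φ

theorem evals_apply (p : ℝ≥0∞) [Fact (1 ≤ p)] {k : ℕ} (φ : Fin k → (X →L[ℝ] ℝ)) (x : X)
    (i : Fin k) : evals p φ x i = φ i x := rfl

theorem const_le {ε e : ℝ} (he : 0 < e) (h1 : 20 * e ≤ ε) (h2 : 20 * e ≤ 1) :
    (1 + e) / (1 - 5 * e) ≤ 1 + ε := by
  rw [div_le_iff₀ (by linarith)]
  nlinarith

theorem copy_top {k : ℕ} {ε e : ℝ} (he : 0 < e) (h1 : 20 * e ≤ ε) (h2 : 20 * e ≤ 1)
    (h : Near k e X) : HasCopy X ∞ k (1 + ε) (1 + ε) := by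
  obtain ⟨y, hy1, hy2⟩ := h
  have key : ∀ φ : X →L[ℝ] ℝ, ‖φ‖ ≤ 1 → ∑ i, |φ (y i)| ≤ 1 + e := by
    intro φ hφ
    obtain ⟨δ, hδ⟩ := exists_signs fun i => φ (y i)
    have h3 : ∑ i, sg (δ i) * φ (y i) = φ (∑ i, sg (δ i) • y i) := by simp
    rw [hδ, h3]
    calc _ ≤ ‖φ‖ * ‖∑ i, sg (δ i) • y i‖ := (le_abs_self _).trans (φ.le_opNorm _)
      _ ≤ 1 * (1 + e) := mul_le_mul hφ (hy2 δ) (norm_nonneg _) zero_le_one
      _ = _ := one_mul _
  have hco : ∀ (v : PiLp ∞ fun _ : Fin k => ℝ) (i : Fin k), |v i| ≤ ‖v‖ := fun v i =>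
    PiLp.norm_apply_le v i
  have hA : ∀ v, ‖comb ∞ y v‖ ≤ (1 + e) * ‖v‖ := by
    intro v
    obtain ⟨φ, hφ1, hφ2⟩ := exists_dual_vector'' ℝ (comb ∞ y v)
    have h3 : ‖comb ∞ y v‖ = ∑ i, v i * φ (y i) := by
      have h4 : φ (comb ∞ y v) = ‖comb ∞ y v‖ := by simpa using hφ2
      rw [← h4, comb_apply]
      simp
    rw [h3]
    calc ∑ i, v i * φ (y i) ≤ ∑ i, ‖v‖ * |φ (y i)| := by
          refine Finset.sum_le_sum fun i _ => (le_abs_self _).trans ?_
          rw [abs_mul]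
          exact mul_le_mul_of_nonneg_right (hco v i) (abs_nonneg _)
      _ ≤ ‖v‖ * (1 + e) := by
          rw [← Finset.mul_sum]
          exact mul_le_mul_of_nonneg_left (key φ hφ1) (norm_nonneg _)
      _ = _ := mul_comm _ _
  choose φ hφ1 hφ2 using fun j => exists_dual_vector'' ℝ (y j)
  have hB : ∀ x, ‖evals ∞ φ x‖ ≤ 1 * ‖x‖ := by
    intro x
    rw [PiLp.norm_eq_ciSup]
    refine Real.iSup_le (fun j => ?_) (by positivity)
    rw [evals_apply]
    exact ((φ j).le_opNorm x).trans (mul_le_mul_of_nonneg_right (hφ1 j) (norm_nonneg _))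
  have hlow : ∀ v, (1 - 5 * e) * ‖v‖ ≤ ‖evals ∞ φ (comb ∞ y v)‖ := by
    intro v
    have h3 : ‖v - evals ∞ φ (comb ∞ y v)‖ ≤ 5 * e * ‖v‖ := by
      rw [PiLp.norm_eq_ciSup]
      refine Real.iSup_le (fun j => ?_) (by positivity)
      have h4 : (v - evals ∞ φ (comb ∞ y v)) j =
          ∑ i, v i * ((if i = j then 1 else 0) - φ j (y i)) := by
        rw [PiLp.sub_apply, evals_apply, comb_apply]
        simp [mul_sub, Finset.sum_sub_distrib]
      have h5 : 1 - 2 * e ≤ φ j (y j) := by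
        have h6 : φ j (y j) = ‖y j‖ := by simpa using hφ2 j
        rw [h6]
        linarith [hy1 j]
      rw [h4, Real.norm_eq_abs]
      calc _ ≤ ∑ i, ‖v‖ * |(if i = j then 1 else 0) - φ j (y i)| := by
            refine (Finset.abs_sum_le_sum_abs _ _).trans (Finset.sum_le_sum fun i _ => ?_)
            rw [abs_mul]
            exact mul_le_mul_of_nonneg_right (hco v i) (abs_nonneg _)
        _ ≤ ‖v‖ * (5 * e) := by
            rw [← Finset.mul_sum]
            exact mul_le_mul_of_nonneg_left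
              (row_le (fun i => φ j (y i)) j (key _ (hφ1 j)) h5 he.le) (norm_nonneg _)
        _ = _ := mul_comm _ _
    have h7 := norm_sub_norm_le v (evals ∞ φ (comb ∞ y v))
    linarith
  have hc : 0 < 1 - 5 * e := by linarith
  have hL : ∀ v, ‖v‖ ≤ (1 - 5 * e)⁻¹ * ‖comb ∞ y v‖ := by
    intro v
    rw [← div_eq_inv_mul, le_div_iff₀ hc, mul_comm]
    exact (hlow v).trans ((hB _).trans (one_mul _).le)
  refine (copy_of_lower _ _ (by linarith) zero_le_one (by positivity) hc hA hB hL hlow).mono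
    (le_trans (le_of_eq ?_) (const_le he h1 h2)) (le_trans (le_of_eq ?_) (const_le he h1 h2))
  · field_simp
  · field_simp

theorem copy_one {k : ℕ} {ε e : ℝ} (he : 0 < e) (h1 : 20 * e ≤ ε) (h2 : 20 * e ≤ 1)
    (h : Near k e (X →L[ℝ] ℝ)) : HasCopy X 1 k (1 + ε) (1 + ε) := by
  obtain ⟨φ, hφ1, hφ2⟩ := h
  have key : ∀ x : X, ∑ i, |φ i x| ≤ (1 + e) * ‖x‖ := by
    intro x
    obtain ⟨δ, hδ⟩ := exists_signs fun i => φ i x
    have h3 : ∑ i, sg (δ i) * φ i x = (∑ i, sg (δ i) • φ i) x := by simp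
    rw [hδ, h3]
    exact (le_abs_self _).trans (((∑ i, sg (δ i) • φ i).le_opNorm x).trans
      (mul_le_mul_of_nonneg_right (hφ2 δ) (norm_nonneg _)))
  have hex : ∀ j, ∃ x : X, ‖x‖ ≤ 1 ∧ 1 - 2 * e ≤ φ j x := by
    intro j
    obtain ⟨x, hx1, hx2⟩ := (φ j).exists_lt_apply_of_lt_opNorm
      (show 1 - 2 * e < ‖φ j‖ by linarith [hφ1 j])
    rw [Real.norm_eq_abs] at hx2
    rcases le_total 0 (φ j x) with h3 | h3
    · exact ⟨x, hx1.le, by rw [abs_of_nonneg h3] at hx2; exact hx2.le⟩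
    · exact ⟨-x, by rw [norm_neg]; exact hx1.le, by
        rw [abs_of_nonpos h3] at hx2
        rw [map_neg]
        exact hx2.le⟩
  choose x hx1 hx2 using hex
  have hn : ∀ v : PiLp 1 fun _ : Fin k => ℝ, ‖v‖ = ∑ i, |v i| := fun v => by
    rw [PiLp.norm_eq_of_L1]
    rfl
  have hA : ∀ v, ‖comb 1 x v‖ ≤ 1 * ‖v‖ := by
    intro v
    rw [comb_apply, one_mul, hn]
    refine (norm_sum_le _ _).trans (Finset.sum_le_sum fun i _ => ?_)
    rw [norm_smul, Real.norm_eq_abs]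
    exact mul_le_of_le_one_right (abs_nonneg _) (hx1 i)
  have hB : ∀ z, ‖evals 1 φ z‖ ≤ (1 + e) * ‖z‖ := by
    intro z
    rw [hn]
    exact key z
  have hlow : ∀ v, (1 - 5 * e) * ‖v‖ ≤ ‖evals 1 φ (comb 1 x v)‖ := by
    intro v
    have h3 : ‖v - evals 1 φ (comb 1 x v)‖ ≤ 5 * e * ‖v‖ := by
      rw [hn, hn]
      have h4 : ∀ i, (v - evals 1 φ (comb 1 x v)) i =
          ∑ j, v j * ((if i = j then 1 else 0) - φ i (x j)) := by
        intro i
        rw [PiLp.sub_apply, evals_apply, comb_apply]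
        simp [mul_sub, Finset.sum_sub_distrib]
      simp only [h4]
      calc _ ≤ ∑ i, ∑ j, |v j| * |(if i = j then 1 else 0) - φ i (x j)| := by
            refine Finset.sum_le_sum fun i _ => (Finset.abs_sum_le_sum_abs _ _).trans
              (le_of_eq (Finset.sum_congr rfl fun j _ => abs_mul _ _))
        _ = ∑ j, |v j| * ∑ i, |(if i = j then 1 else 0) - φ i (x j)| := by
            rw [Finset.sum_comm]
            simp only [Finset.mul_sum]
        _ ≤ ∑ j, |v j| * (5 * e) := by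
            refine Finset.sum_le_sum fun j _ => mul_le_mul_of_nonneg_left ?_ (abs_nonneg _)
            refine row_le (fun i => φ i (x j)) j ((key _).trans ?_) (hx2 j) he.le
            exact mul_le_of_le_one_right (by linarith) (hx1 j)
        _ = _ := by rw [← Finset.sum_mul, mul_comm]
    have h7 := norm_sub_norm_le v (evals 1 φ (comb 1 x v))
    linarith
  have hc : 0 < 1 - 5 * e := by linarith
  have hL : ∀ v, ‖v‖ ≤ (1 + e) / (1 - 5 * e) * ‖comb 1 x v‖ := by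
    intro v
    rw [div_mul_eq_mul_div, le_div_iff₀ hc, mul_comm]
    exact (hlow v).trans (hB _)
  refine (copy_of_lower _ _ zero_le_one (by linarith) (by positivity) hc hA hB hL hlow).mono
    (le_trans (le_of_eq ?_) (const_le he h1 h2)) (le_trans (le_of_eq ?_) (const_le he h1 h2))
  · rw [mul_one]
  · rw [one_mul]

end Vale.Agent.N111L
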