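import Vale.Agent.P208.H257.Dvor

/-!
The Dvoretzky-Rogers lemma for spaces of large dimension (the proofs are those of the folder
`P208/H257`, with the hypothesis of infinite dimension replaced by a bound on the rank).
-/

namespace Vale.Agent.N111L

open Module MeasureTheory ProbabilityTheory Vale.Agent.P208.D257
open scoped RealInnerProductSpace

universe u

theorem exists_ellipsoid' {E : Type*} [NormedAddCommGroup E] [NormedSpace ℝ E] (n : ℕ)
    (hE : (n : Cardinal) ≤ Module.rank ℝ E) :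
    ∃ T : EuclideanSpace ℝ (Fin n) →ₗ[ℝ] E, (∀ v, ‖T v‖ ≤ ‖v‖) ∧
      ∀ G : Submodule ℝ (EuclideanSpace ℝ (Fin n)), n < 2 * Module.finrank ℝ G →
        ∃ g ∈ G, ‖g‖ = 1 ∧ 1 / 2 ≤ ‖T g‖ := by
  obtain ⟨e, he⟩ : ∃ e : EuclideanSpace ℝ (Fin n) →ₗ[ℝ] E, Function.Injective e := by
    obtain ⟨f, hf⟩ := exists_linearIndependent_of_le_rank hE
    exact ⟨(EuclideanSpace.basisFun (Fin n) ℝ).toBasis.constr ℝ f,
      Basis.injective_constr_of_linearIndependent _ hf⟩
  obtain ⟨K, hK0, hK⟩ := e.exists_antilipschitzWith (LinearMap.ker_eq_bot.2 he)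
  have hKe : ∀ v, ‖v‖ ≤ K * ‖e v‖ := by
    intro v
    simpa only [dist_zero_right, map_zero] using hK.le_mul_dist v 0
  have hec : Continuous e := e.continuous_of_finiteDimensional
  let S : Set (EuclideanSpace ℝ (Fin n) →L[ℝ] EuclideanSpace ℝ (Fin n)) :=
    {A | ∀ v, ‖e (A v)‖ ≤ ‖v‖}
  have hSclosed : IsClosed S := by
    have : S = ⋂ v, {A | ‖e (A v)‖ ≤ ‖v‖} := by
      ext A
      simp only [Set.mem_ofPred_eq, Set.mem_iInter, S]
    rw [this]
    refine isClosed_iInter fun v => ?_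
    refine isClosed_le ?_ continuous_const
    exact (hec.comp (ContinuousLinearMap.apply ℝ _ v).continuous).norm
  have hSbdd : Bornology.IsBounded S := by
    refine (isBounded_iff_forall_norm_le).2 ⟨K, fun A hA => ?_⟩
    refine ContinuousLinearMap.opNorm_le_bound _ K.2 fun v => ?_
    calc ‖A v‖ ≤ K * ‖e (A v)‖ := hKe _
      _ ≤ K * ‖v‖ := by gcongr; exact hA v
  have hScomp : IsCompact S := Metric.isCompact_of_isClosed_isBounded hSclosed hSbdd
  have hdetc : Continuous fun A : EuclideanSpace ℝ (Fin n) →L[ℝ] EuclideanSpace ℝ (Fin n) =>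
      |LinearMap.det A.toLinearMap| := ContinuousLinearMap.continuous_det.abs
  -- a nondegenerate element of `S`
  obtain ⟨t, ht0, ht⟩ : ∃ t : ℝ, 0 < t ∧ ∀ v, ‖e (t • v)‖ ≤ ‖v‖ := by
    let ec : EuclideanSpace ℝ (Fin n) →L[ℝ] E := LinearMap.toContinuousLinearMap e
    refine ⟨1 / (‖ec‖ + 1), by positivity, fun v => ?_⟩
    have h1 : ‖e v‖ ≤ ‖ec‖ * ‖v‖ := ec.le_opNorm v
    rw [map_smul, norm_smul, Real.norm_of_nonneg (by positivity), div_mul_eq_mul_div, one_mul,
      div_le_iff₀ (by positivity)]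
    nlinarith only [h1, norm_nonneg v]
  have hA0 : (t • (ContinuousLinearMap.id ℝ (EuclideanSpace ℝ (Fin n)))) ∈ S := by
    intro v
    simpa only [smul_apply, ContinuousLinearMap.id_apply, map_smul] using ht v
  obtain ⟨A, hAS, hAmax⟩ := hScomp.exists_isMaxOn ⟨_, hA0⟩ hdetc.continuousOn
  have hApos : 0 < |LinearMap.det A.toLinearMap| := by
    refine lt_of_lt_of_le ?_ (hAmax hA0)
    have : ((t • (ContinuousLinearMap.id ℝ (EuclideanSpace ℝ (Fin n)))).toLinearMap)
        = t • LinearMap.id := rfl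
    simp only [this, LinearMap.det_smul, LinearMap.det_id, mul_one]
    positivity
  refine ⟨e ∘ₗ A.toLinearMap, fun v => hAS v, fun G hG => ?_⟩
  by_contra hcon
  push Not at hcon
  have hTG : ∀ g ∈ G, ‖e (A g)‖ ≤ 1 / 2 * ‖g‖ := by
    intro g hg
    rcases eq_or_ne g 0 with rfl | hg0
    · simp
    · have hn : 0 < ‖g‖ := norm_pos_iff.2 hg0
      have h1 := hcon (‖g‖⁻¹ • g) (G.smul_mem _ hg) (by
        rw [norm_smul, norm_inv, norm_norm, inv_mul_cancel₀ hn.ne'])
      simp only [LinearMap.comp_apply, ContinuousLinearMap.coe_coe, map_smul, norm_smul, norm_inv,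
        norm_norm] at h1
      rw [inv_mul_lt_iff₀ hn] at h1
      linarith only [h1]
  set s : ℝ := √2 with hs
  have hs2 : s * s = 2 := Real.mul_self_sqrt (by norm_num)
  have hs0 : 0 < s := Real.sqrt_pos.2 (by norm_num)
  let B : EuclideanSpace ℝ (Fin n) →L[ℝ] EuclideanSpace ℝ (Fin n) :=
    (s / 2) • ContinuousLinearMap.id ℝ _ + (s - s / 2) • G.starProjection
  have hBdet : LinearMap.det B.toLinearMap = s ^ (finrank ℝ G) * (s / 2) ^ (n - finrank ℝ G) :=
    det_smul_proj G s (s / 2)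
  have hBS : A ∘L B ∈ S := by
    intro v
    set p := G.starProjection v with hp
    have hpG : p ∈ G := G.starProjection_apply_mem v
    have hqG : v - p ∈ Gᗮ := G.sub_starProjection_mem_orthogonal v
    have hBv : B v = s • p + (s / 2) • (v - p) := by
      simp only [B, add_apply, smul_apply,
        ContinuousLinearMap.id_apply, ← hp]
      module
    have hpyth : ‖v‖ * ‖v‖ = ‖p‖ * ‖p‖ + ‖v - p‖ * ‖v - p‖ := by
      have h := norm_add_sq_eq_norm_sq_add_norm_sq_of_inner_eq_zero p (v - p)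
        (hqG p hpG)
      simpa only [add_sub_cancel] using h
    have h1 : ‖e (A (B v))‖ ≤ s / 2 * (‖p‖ + ‖v - p‖) := by
      rw [hBv, map_add, map_add, map_smul, map_smul, map_smul, map_smul]
      calc ‖s • e (A p) + (s / 2) • e (A (v - p))‖
          ≤ ‖s • e (A p)‖ + ‖(s / 2) • e (A (v - p))‖ := norm_add_le _ _
        _ = s * ‖e (A p)‖ + s / 2 * ‖e (A (v - p))‖ := by
            rw [norm_smul, norm_smul, Real.norm_of_nonneg hs0.le,
              Real.norm_of_nonneg (by positivity)]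
        _ ≤ s * (1 / 2 * ‖p‖) + s / 2 * ‖v - p‖ := by
            gcongr
            · exact hTG p hpG
            · exact hAS (v - p)
        _ = s / 2 * (‖p‖ + ‖v - p‖) := by ring
    change ‖e (A (B v))‖ ≤ ‖v‖
    refine h1.trans ?_
    refine abs_le_of_sq_le_sq' ?_ (norm_nonneg v) |>.2
    nlinarith only [hs2, hpyth, sq_nonneg (‖p‖ - ‖v - p‖)]
  have hmax := hAmax hBS
  replace hmax : |LinearMap.det (A ∘L B).toLinearMap| ≤ |LinearMap.det A.toLinearMap| := hmax
  have hcomp : LinearMap.det (A ∘L B).toLinearMap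
      = LinearMap.det A.toLinearMap * LinearMap.det B.toLinearMap := by
    rw [← LinearMap.det_comp]
    rfl
  rw [hcomp, abs_mul, hBdet] at hmax
  have hk : finrank ℝ G ≤ n := by
    simpa only [finrank_euclideanSpace, Fintype.card_fin] using Submodule.finrank_le G
  set k := finrank ℝ G with hkdef
  have hbig : (1 : ℝ) < s ^ k * (s / 2) ^ (n - k) := by
    have hs1 : 1 < s := by
      by_contra h
      push Not at h
      nlinarith only [hs2, h, hs0]
    have hinv : s / 2 = s⁻¹ := by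
      refine eq_inv_of_mul_eq_one_left ?_
      linarith only [hs2]
    have hlt : n - k < k := by omega
    rw [hinv, inv_pow, ← div_eq_mul_inv, one_lt_div (by positivity)]
    exact pow_lt_pow_right₀ hs1 hlt
  rw [abs_of_pos (by positivity : 0 < s ^ k * (s / 2) ^ (n - k))] at hmax
  nlinarith only [hmax, hApos, hbig]


/-- **Dvoretzky-Rogers** -/
theorem exists_DR' {Y : Type*} [NormedAddCommGroup Y] [NormedSpace ℝ Y] (N : ℕ)
    (hY : ((2 * N : ℕ) : Cardinal) ≤ Module.rank ℝ Y) :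
    ∃ T : EuclideanSpace ℝ (Fin N) →ₗ[ℝ] Y, (∀ v, ‖T v‖ ≤ ‖v‖) ∧
      ∀ i, 1 / 2 ≤ ‖T (EuclideanSpace.single i 1)‖ := by
  obtain ⟨T, h1, h2⟩ := exists_ellipsoid' (2 * N) hY
  obtain ⟨u, hu, hu2⟩ := exists_greedy T h2 N le_rfl
  set b := (EuclideanSpace.basisFun (Fin N) ℝ) with hb
  set f : EuclideanSpace ℝ (Fin N) →ₗ[ℝ] EuclideanSpace ℝ (Fin (2 * N)) :=
    b.toBasis.constr ℝ u with hf
  have hfb : ∀ i, f (b i) = u i := by
    intro i
    rw [hf, ← b.coe_toBasis]
    exact b.toBasis.constr_basis ℝ u i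
  have hfo : Orthonormal ℝ (f ∘ b.toBasis) := by
    have : f ∘ b.toBasis = u := by
      funext i
      simpa using hfb i
    rw [this]
    exact hu
  have hbo : Orthonormal ℝ b.toBasis := by
    rw [b.coe_toBasis]
    exact b.orthonormal
  set F := f.isometryOfOrthonormal hbo hfo with hF
  have hFf : ∀ v, F v = f v := fun v => rfl
  refine ⟨T ∘ₗ f, fun v => ?_, fun i => ?_⟩
  · rw [LinearMap.comp_apply]
    refine (h1 _).trans ?_
    rw [← hFf, F.norm_map]
  · rw [LinearMap.comp_apply]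
    have : (EuclideanSpace.single i (1 : ℝ)) = b i := by simp [hb]
    rw [this, hfb]
    exact hu2 i

/-- **the mean tends to infinity** -/
theorem exists_mean_ge' (t : ℝ) : ∃ N : ℕ, ∀ {Y : Type u} [NormedAddCommGroup Y] [NormedSpace ℝ Y]
    (T : EuclideanSpace ℝ (Fin N) →ₗ[ℝ] Y) (_ : ∀ v, ‖T v‖ ≤ ‖v‖)
    (_ : ∀ i, 1 / 2 ≤ ‖T (EuclideanSpace.single i 1)‖),
    t ≤ ∫ x, ‖T x‖ ∂(stdGaussian (EuclideanSpace ℝ (Fin N))) := by
  set s : ℝ := 4 * |t| with hs
  have hs0 : 0 ≤ s := by positivity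
  obtain ⟨N, hN⟩ := exists_pow_lt_of_lt_one (show (0 : ℝ) < 1 / 2 by norm_num) (gauss_Icc_lt s)
  refine ⟨N, fun T hT hT2 => ?_⟩
  have h1 := mean_ge T hT hT2 hs0
  have hm : MeasurableSet {x : EuclideanSpace ℝ (Fin N) | ∀ i, |x i| ≤ s} := by
    have : {x : EuclideanSpace ℝ (Fin N) | ∀ i, |x i| ≤ s} = ⋂ i, {x | |x i| ≤ s} := by
      ext x; simp
    rw [this]
    exact MeasurableSet.iInter fun i =>
      measurableSet_le (Continuous.measurable (by fun_prop)) measurable_const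
  have h2 : 1 / 2 ≤ (stdGaussian (EuclideanSpace ℝ (Fin N))).real
      {x : EuclideanSpace ℝ (Fin N) | ∀ i, |x i| ≤ s}ᶜ := by
    rw [measureReal_compl hm, gauss_cube]
    rw [probReal_univ]
    linarith
  have h3 : t ≤ |t| := le_abs_self t
  have h4 : s / 2 * (1 / 2) ≤ s / 2 * (stdGaussian (EuclideanSpace ℝ (Fin N))).real
      {x : EuclideanSpace ℝ (Fin N) | ∀ i, |x i| ≤ s}ᶜ := by gcongr
  linarith

end Vale.Agent.N111L
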