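import Mathlib.Probability.UniformOn
import Mathlib.MeasureTheory.Integral.Bochner.Basic
import Mathlib.Analysis.Normed.Lp.PiLp

/-! Definitions used in the statement of `A0Complemented`. -/

namespace Vale.Agent.N111L

open MeasureTheory ProbabilityTheory
open scoped ENNReal

/-- The uniform probability on the discrete cube. -/
noncomputable def cube (s : ℕ) : Measure (Fin s → Bool) := uniformOn Set.univ

/-- The sign `1` for `true`, `-1` for `false`. -/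
def sgn (b : Bool) : ℝ := if b then 1 else -1

variable (X : Type*) [NormedAddCommGroup X] [NormedSpace ℝ X]

/-- The cotype `q` constant `C_q(X) ∈ [0, ∞]`. -/
noncomputable def cotypeConst (q : ℝ) : ℝ≥0∞ :=
  sInf {C | ∀ (s : ℕ) (y : Fin s → X),
    (∑ i, ‖y i‖ₑ ^ q) ^ (1 / q) ≤ C * eLpNorm (fun ε => ∑ i, sgn (ε i) • y i) 2 (cube s)}

/-- The Rademacher projection. -/
noncomputable def radProj {s : ℕ} (f : (Fin s → Bool) → X) (ε : Fin s → Bool) : X :=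
  ∑ i, sgn (ε i) • ∫ η, sgn (η i) • f η ∂cube s

/-- `K(X) ∈ [0, ∞]`, the supremum of the norms of the Rademacher projections on `L₂`. -/
noncomputable def kConst : ℝ≥0∞ :=
  ⨆ (s : ℕ) (f : (Fin s → Bool) → X) (_ : eLpNorm f 2 (cube s) ≤ 1),
    eLpNorm (radProj X f) 2 (cube s)

/-- The identity is approximated on compact sets by finite rank maps of norm at most `lam`. -/
def Approximates (lam : ℝ≥0∞) : Prop :=
  ∀ M : Set X, IsCompact M → ∀ δ : ℝ, 0 < δ → ∃ S : X →L[ℝ] X,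
    FiniteDimensional ℝ S.range ∧ ‖S‖ₑ ≤ lam ∧ ∀ x ∈ M, ‖S x - x‖ < δ

/-- The approximation property. -/
def AP : Prop := Approximates X ∞

/-- The bounded approximation property. -/
def BAP : Prop := ∃ lam < ∞, Approximates X lam

/-- There is a projection `P` of `X` of norm at most `C` whose range `E` has an isomorphism `T`
onto `ℓ_p^n` with `‖T‖ ‖T⁻¹‖ ≤ D`. -/
def HasCopy (p : ℝ≥0∞) [Fact (1 ≤ p)] (n : ℕ) (D C : ℝ) : Prop :=
  ∃ (P : X →L[ℝ] X) (T : P.range ≃L[ℝ] PiLp p fun _ : Fin n => ℝ), P ∘L P = P ∧ ‖P‖ ≤ C ∧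
    ‖T.toContinuousLinearMap‖ * ‖T.symm.toContinuousLinearMap‖ ≤ D

universe u

open Filter Module

/-- Uniformly complemented `ℓ_p^n` in spaces with the approximation property. -/
def ComplForm : Prop :=
  ∀ (X : Type u) [NormedAddCommGroup X] [NormedSpace ℝ X] [CompleteSpace X], AP X →
    (kConst X = ∞ ↔ (∀ ε : ℝ, 0 < ε → ∀ n, HasCopy X ∞ n (1 + ε) (1 + ε)) ∨
      ∀ ε : ℝ, 0 < ε → ∀ n, HasCopy X 1 n (1 + ε) (1 + ε)) ∧
    (¬ FiniteDimensional ℝ X → ∃ (p : ℝ≥0∞) (_ : Fact (1 ≤ p)), (p = 1 ∨ p = 2 ∨ p = ∞) ∧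
      ∃ C : ℝ, ∀ ε : ℝ, 0 < ε → ∀ n, HasCopy X p n (1 + ε) C)

/-- The uniform form. -/
def UniformForm : Prop :=
  ∀ (k : ℕ) (ε : ℝ), 0 < ε → ∃ C : ℝ, ∀ (m : ℕ) (δ : ℝ), 0 < δ → ∃ N : ℕ,
    ∀ (X : Type u) [NormedAddCommGroup X] [NormedSpace ℝ X] [CompleteSpace X], AP X →
      (N : Cardinal) ≤ Module.rank ℝ X →
      HasCopy X ∞ k (1 + ε) (1 + ε) ∨ HasCopy X 1 k (1 + ε) (1 + ε) ∨ HasCopy X 2 m (1 + δ) C

/-- Sequences of finite dimensional spaces. -/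
def SeqForm : Prop :=
  ∀ (X : ℕ → Type u) [∀ n, NormedAddCommGroup (X n)] [∀ n, NormedSpace ℝ (X n)]
    [∀ n, FiniteDimensional ℝ (X n)], Tendsto (fun n => finrank ℝ (X n)) atTop atTop →
    ∃ (p : ℝ≥0∞) (_ : Fact (1 ≤ p)), (p = 1 ∨ p = 2 ∨ p = ∞) ∧
      ∃ (C : ℝ) (n : ℕ → ℕ), StrictMono n ∧ ∀ m, HasCopy (X (n m)) p m C C

/-- Nontrivial projections with slowly growing norms. -/
def ProjForm : Prop :=
  ∀ f : ℕ → ℝ, Tendsto f atTop atTop → ∀ k : ℕ, ∃ N : ℕ,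
    ∀ (X : Type u) [NormedAddCommGroup X] [NormedSpace ℝ X] [FiniteDimensional ℝ X],
      N ≤ finrank ℝ X → ∃ P : X →L[ℝ] X, P ∘L P = P ∧ k ≤ finrank ℝ P.range ∧
        finrank ℝ P.range ≤ finrank ℝ (1 - P).range ∧ ‖P‖ ≤ f (finrank ℝ P.range)

end Vale.Agent.N111L
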