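import Vale.Agent.N111L.Gauss
import Vale.Agent.N111L.Copy

/-!
Complemented Euclidean subspaces of K-convex spaces, with uniform constants.
-/

set_option linter.unusedSectionVars false

namespace Vale.Agent.N111L

open Finset Module MeasureTheory ProbabilityTheory Vale.Agent.P111 Vale.Agent.P208.D257
open scoped RealInnerProductSpace

universe u

section

variable {n : ℕ} {X : Type*} [NormedAddCommGroup X] [NormedSpace ℝ X]

/-- Functionals from K-convexity of the dual. -/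
theorem exists_functionals {K : ℝ} (hK : 0 ≤ K) (h : KConvexWith K (X →L[ℝ] ℝ)) (x : Fin n → X)
    (hx : 0 < H1.rsq x) : ∃ y : Fin n → (X →L[ℝ] ℝ), ∑ i, y i (x i) = √(H1.rsq x) ∧
      H1.rsq y ≤ K ^ 2 := by
  set R := √(H1.rsq x) with hR
  have hR0 : 0 < R := Real.sqrt_pos.2 hx
  have hRsq : R ^ 2 = H1.rsq x := Real.sq_sqrt hx.le
  choose ψ hψ1 hψ2 using fun δ : Fin n → ℤˣ => exists_norming (∑ i, sg (δ i) • x i)
  set f : (Fin n → ℤˣ) → (X →L[ℝ] ℝ) := fun δ => R⁻¹ • ψ δ with hf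
  refine ⟨fun i => avg fun η : Fin n → ℤˣ => sg (η i) • f η, ?_, ?_⟩
  · simp only [avg_apply]
    rw [← avg_sum]
    have h1 : ∀ η : Fin n → ℤˣ, ∑ i, (sg (η i) • f η) (x i) =
        R⁻¹ * ‖∑ i, sg (η i) • x i‖ ^ 2 := by
      intro η
      rw [← hψ2]
      simp [hf, Finset.mul_sum, mul_left_comm]
    rw [avg_congr h1, avg_mul_left]
    change R⁻¹ * H1.rsq x = R
    rw [← hRsq]
    field_simp
  · have h1 := h n f
    have h2 : (avg fun δ => ‖f δ‖ ^ 2) ≤ 1 := by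
      have h3 : ∀ δ, ‖f δ‖ ^ 2 ≤ (R ^ 2)⁻¹ * ‖∑ i, sg (δ i) • x i‖ ^ 2 := by
        intro δ
        rw [hf]
        simp only [norm_smul, norm_inv, Real.norm_eq_abs, abs_of_pos hR0, mul_pow, inv_pow]
        exact mul_le_mul_of_nonneg_left (pow_le_pow_left₀ (norm_nonneg _) (hψ1 δ) 2)
          (by positivity)
      refine (avg_mono h3).trans (le_of_eq ?_)
      rw [avg_mul_left]
      change (R ^ 2)⁻¹ * H1.rsq x = 1
      rw [← hRsq]
      field_simp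
    rw [← Real.sqrt_eq_rpow, ← Real.sqrt_eq_rpow] at h1
    have h4 : √(avg fun δ => ‖f δ‖ ^ 2) ≤ 1 := Real.sqrt_le_one.2 h2
    have h5 : √(avg fun ε => ‖rad f ε‖ ^ 2) ≤ K :=
      h1.trans (mul_le_of_le_one_right hK h4)
    exact (Real.sqrt_le_left hK).1 h5

/-- The trimmed system of functionals. -/
theorem exists_trimmed (T : Eu n →ₗ[ℝ] X) (hT : ∀ v, ‖T v‖ ≤ ‖v‖)
    (W : Eu n →ₗ[ℝ] (X →L[ℝ] ℝ)) {g δ : ℝ} (hδ : 0 ≤ δ) (hW : gm W ≤ g) {l : ℕ}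
    {u : Fin l → Eu n} (hu : Orthonormal ℝ u)
    (hh : ∀ h, (∀ i, ⟪u i, h⟫ = 0) → ‖W h‖ ≤ δ * ‖h‖) (e : OrthonormalBasis (Fin n) ℝ (Eu n)) :
    ∃ W' : Eu n →ₗ[ℝ] (X →L[ℝ] ℝ), (∀ v, ‖W' v‖ ≤ δ * ‖v‖) ∧ gm W' ≤ g ∧
      ∑ i, W (e i) (T (e i)) - l * √(2 * g) ≤ ∑ i, W' (e i) (T (e i)) := by
  classical
  obtain ⟨hl, b, hb⟩ := exists_basis hu
  set S := Submodule.span ℝ (Set.range u) with hS
  set P : Eu n →ₗ[ℝ] Eu n := (Sᗮ.starProjection : Eu n →L[ℝ] Eu n).toLinearMap with hP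
  set I := Finset.univ.image (Fin.castLE hl) with hI
  have hPb : ∀ i, P (b i) = (if i ∈ I then (0:ℝ) else 1) • b i := by
    intro i
    split_ifs with hi
    · obtain ⟨j, -, rfl⟩ := Finset.mem_image.1 hi
      rw [zero_smul, hb]
      exact Submodule.starProjection_orthogonal_apply_eq_zero (Submodule.subset_span ⟨j, rfl⟩)
    · rw [one_smul]
      refine Submodule.starProjection_eq_self_iff.2 ?_
      rw [hS, Submodule.mem_orthogonal]
      intro v hv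
      refine Submodule.span_induction (p := fun v _ => ⟪v, b i⟫ = 0) ?_ ?_ ?_ ?_ hv
      · rintro _ ⟨j, rfl⟩
        rw [← hb]
        refine b.orthonormal.2 fun hij => hi ?_
        exact Finset.mem_image.2 ⟨j, Finset.mem_univ _, hij⟩
      · exact inner_zero_left _
      · intro a c _ _ ha hc
        rw [inner_add_left, ha, hc, add_zero]
      · intro a c _ hc
        rw [real_inner_smul_left, hc, mul_zero]
  refine ⟨W ∘ₗ P, fun v => ?_, ?_, ?_⟩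
  · refine (hh (P v) fun i => ?_).trans (mul_le_mul_of_nonneg_left ?_ hδ)
    · exact (Submodule.mem_orthogonal S _).1 (Sᗮ.starProjection_apply_mem v) _
        (Submodule.subset_span ⟨i, rfl⟩)
    · exact Sᗮ.norm_starProjection_apply_le v
  · refine le_trans ?_ hW
    rw [gm_eq _ b, gm_eq _ b]
    simp only [LinearMap.comp_apply, hPb, map_smul]
    exact gsq_contract _ (fun i => by split_ifs <;> simp) _
  · rw [trace_eq W T b e, trace_eq (W ∘ₗ P) T b e, sub_le_iff_le_add]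
    have h1 : ∀ i, W (b i) (T (b i)) ≤
        (W ∘ₗ P) (b i) (T (b i)) + if i ∈ I then √(2 * g) else 0 := by
      intro i
      rw [LinearMap.comp_apply, hPb]
      split_ifs with hi
      · rw [zero_smul, map_zero, zero_apply, zero_add]
        have h2 : ‖W (b i)‖ ≤ √(2 * g) := Real.le_sqrt_of_sq_le
          ((norm_sq_le_rsq (fun j => W (b j)) i).trans ((rsq_le_gm W b).trans (by linarith)))
        have h3 : ‖T (b i)‖ ≤ 1 := (hT _).trans (b.orthonormal.1 i).le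
        calc W (b i) (T (b i)) ≤ ‖W (b i)‖ * ‖T (b i)‖ :=
              (le_abs_self _).trans ((W (b i)).le_opNorm _)
          _ ≤ √(2 * g) * 1 := mul_le_mul h2 h3 (norm_nonneg _) (Real.sqrt_nonneg _)
          _ = _ := mul_one _
      · rw [one_smul, add_zero]
    refine (Finset.sum_le_sum fun i _ => h1 i).trans ?_
    rw [Finset.sum_add_distrib, Finset.sum_ite_mem, Finset.univ_inter, Finset.sum_const,
      nsmul_eq_mul, hI, Finset.card_image_of_injective _ (Fin.castLE_injective hl)]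
    simp

/-- A random matrix avoids a small set on a finite set of unit vectors. -/
theorem exists_good {m : ℕ} (F : Finset (Eu m)) (hF : ∀ y ∈ F, ‖y‖ = 1) (B : Set (Eu n)) {p : ℝ}
    (hB : stdGaussian (Eu n) B ≤ ENNReal.ofReal p) (hp : #F * p < 1) :
    ∃ A : Eu m →ₗ[ℝ] Eu n, ∀ y ∈ F, A y ∉ B := by
  set P : Measure (Fin m → Eu n) := Measure.pi fun _ : Fin m => stdGaussian (Eu n) with hP
  have hbad : ∀ y ∈ F, P {G | ∑ i, y i • G i ∈ B} ≤ ENNReal.ofReal p := by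
    intro y hy
    have hy1 : ∑ i, y i ^ 2 = 1 := by
      have := hF y hy
      rw [EuclideanSpace.norm_eq, Real.sqrt_eq_one] at this
      simpa using this
    have e1 := map_comb (E := Eu n) (fun i => y i) hy1
    have hGm : Measurable fun G : Fin m → Eu n => ∑ i, y i • G i := by fun_prop
    have e2 := Measure.le_map_apply (μ := P) hGm.aemeasurable B
    rw [e1] at e2
    exact e2.trans hB
  have hsum : P (⋃ y ∈ F, {G | ∑ i, y i • G i ∈ B}) < 1 := by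
    refine (measure_biUnion_finset_le F _).trans_lt ?_
    refine (Finset.sum_le_sum hbad).trans_lt ?_
    rw [Finset.sum_const, nsmul_eq_mul, ← ENNReal.ofReal_natCast,
      ← ENNReal.ofReal_mul (Nat.cast_nonneg _)]
    exact ENNReal.ofReal_lt_one.2 hp
  have hex : ∃ G : Fin m → Eu n, G ∉ ⋃ y ∈ F, {G | ∑ i, y i • G i ∈ B} := by
    by_contra hcon
    push Not at hcon
    rw [Set.eq_univ_of_forall hcon, measure_univ] at hsum
    exact lt_irrefl _ hsum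
  obtain ⟨G, hG⟩ := hex
  simp only [Set.mem_iUnion, Set.mem_ofPred_eq, not_exists] at hG
  refine ⟨(comb 2 G).toLinearMap, fun y hy => ?_⟩
  have h1 : (comb 2 G).toLinearMap y = ∑ i, y i • G i := comb_apply 2 G y
  rw [h1]
  exact hG y hy

theorem homog {m : ℕ} (φ : Eu m → ℝ) (k : ℕ) (hk : k ≠ 0) (hφ : ∀ (c : ℝ) x, 0 ≤ c →
    φ (c • x) = c ^ k * φ x) (h : ∀ x, ‖x‖ = 1 → 0 ≤ φ x) (x : Eu m) : 0 ≤ φ x := by
  rcases eq_or_ne x 0 with rfl | hx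
  · have := hφ 0 0 le_rfl
    rw [zero_smul, zero_pow hk, zero_mul] at this
    exact this.ge
  have hn : 0 < ‖x‖ := norm_pos_iff.2 hx
  have h1 := h (‖x‖⁻¹ • x) (by rw [norm_smul, norm_inv, norm_norm, inv_mul_cancel₀ hn.ne'])
  rw [hφ _ _ (by positivity)] at h1
  exact nonneg_of_mul_nonneg_right h1 (by positivity)

theorem net_upper {m : ℕ} {Y : Type*} [NormedAddCommGroup Y] [NormedSpace ℝ Y]
    (A : Eu m →ₗ[ℝ] Y) {θ β : ℝ} (hθ : 0 ≤ θ) (hθ1 : θ ≤ 1 / 2) (hβ : 0 ≤ β) {F : Finset (Eu m)}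
    (hF : ∀ x : Eu m, ‖x‖ = 1 → ∃ y ∈ F, ‖x - y‖ ≤ θ) (hA : ∀ y ∈ F, ‖A y‖ ≤ β) (x : Eu m) :
    ‖A x‖ ≤ 2 * β * ‖x‖ := by
  set Ac := LinearMap.toContinuousLinearMap A with hAc
  have h1 : ‖Ac‖ ≤ β + θ * ‖Ac‖ := by
    refine ContinuousLinearMap.opNorm_le_of_unit_norm (by positivity) fun w hw => ?_
    obtain ⟨y, hyF, hy⟩ := hF w hw
    have h3 : Ac w = A y + Ac (w - y) := by
      rw [map_sub]
      change A w = A y + (A w - A y)
      abel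
    have h4 : ‖Ac (w - y)‖ ≤ ‖Ac‖ * θ := (Ac.le_opNorm _).trans (by gcongr)
    rw [h3]
    linarith [norm_add_le (A y) (Ac (w - y)), hA y hyF]
  have h2 : ‖Ac‖ ≤ 2 * β := by nlinarith [norm_nonneg Ac]
  exact (Ac.le_opNorm x).trans (mul_le_mul_of_nonneg_right h2 (norm_nonneg _))

/-- From estimates on a net to a complemented Euclidean subspace. -/
theorem copy_of_net {m : ℕ} (a : Eu m →ₗ[ℝ] X) (w : Eu m →ₗ[ℝ] (X →L[ℝ] ℝ)) {θ M β Γ ε : ℝ}
    (hθ : 0 < θ) (hθ1 : 10 * θ ≤ 1) (hθε : 10 * θ ≤ ε) (hM : 0 < M) (hβ : 0 < β) (hΓ : 0 < Γ)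
    (hθ2 : θ * (64 * β * Γ) ≤ 1) {F : Finset (Eu m)} (hF1 : ∀ y ∈ F, ‖y‖ = 1)
    (hF : ∀ x : Eu m, ‖x‖ = 1 → ∃ y ∈ F, ‖x - y‖ ≤ θ)
    (h1 : ∀ y ∈ F, |‖a y‖ - M| ≤ θ * M) (h2 : ∀ y ∈ F, ‖w y‖ ≤ β)
    (h3 : ∀ y ∈ F, M / (4 * Γ) ≤ w y (a y)) : HasCopy X 2 m (1 + ε) (32 * β * Γ) := by
  have ha := net_to_all a hθ (by linarith) hM hF1 hF h1
  have hw := net_upper w hθ.le (by linarith) hβ.le hF h2
  have h1θ : 0 < 1 - θ := by linarith
  have h3θ : 0 < 1 - 3 * θ := by linarith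
  set A : ℝ := (1 + θ) / (1 - θ) * M with hA
  have hA2 : A ≤ 2 * M := by
    refine mul_le_mul_of_nonneg_right ?_ hM.le
    rw [div_le_iff₀ h1θ]
    linarith
  have ha2 : ∀ x, ‖a x‖ ≤ 2 * M * ‖x‖ := fun x =>
    (ha x).2.trans (mul_le_mul_of_nonneg_right hA2 (norm_nonneg _))
  have hco : ∀ x, M / (8 * Γ) * ‖x‖ ^ 2 ≤ w x (a x) := by
    intro x
    rw [← sub_nonneg]
    refine homog (fun x => w x (a x) - M / (8 * Γ) * ‖x‖ ^ 2) 2 two_ne_zero ?_ ?_ x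
    · intro c x hc
      simp only [map_smul, smul_apply, smul_eq_mul, norm_smul, Real.norm_of_nonneg hc]
      ring
    · intro x hx
      obtain ⟨y, hyF, hy⟩ := hF x hx
      have e : w x (a x) = w y (a y) + w (x - y) (a y) + w x (a (x - y)) := by
        simp only [map_sub, sub_apply]
        ring
      have h4 : |w (x - y) (a y)| ≤ 2 * β * θ * (2 * M) := by
        refine ((w (x - y)).le_opNorm _).trans (mul_le_mul ((hw _).trans (by gcongr)) ?_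
          (norm_nonneg _) (by positivity))
        simpa [hF1 y hyF] using ha2 y
      have h5 : |w x (a (x - y))| ≤ 2 * β * (2 * M * θ) := by
        refine ((w x).le_opNorm _).trans (mul_le_mul ?_ ((ha2 _).trans (by gcongr))
          (norm_nonneg _) (by positivity))
        simpa [hx] using hw x
      have h6 : 8 * β * θ * M ≤ M / (8 * Γ) := by
        rw [le_div_iff₀ (by positivity)]
        nlinarith
      have h7 : M / (4 * Γ) = 2 * (M / (8 * Γ)) := by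
        field_simp
        ring
      have h8 := h3 y hyF
      have h9 := (abs_le.1 h4).1
      have h10 := (abs_le.1 h5).1
      simp only [hx]
      rw [e]
      linarith
  set e := EuclideanSpace.basisFun (Fin m) ℝ with he
  set b : X →L[ℝ] Eu m := evals 2 fun j => w (e j) with hb
  have hpair : ∀ (v : Eu m) (x : X), ⟪v, b x⟫ = w v x := by
    intro v x
    conv_rhs => rw [← e.sum_repr v]
    rw [PiLp.inner_apply]
    simp only [map_sum, map_smul, _root_.sum_apply, smul_apply, smul_eq_mul]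
    refine Finset.sum_congr rfl fun j _ => ?_
    rw [hb, evals_apply]
    simp [he, mul_comm]
  have hB : ∀ x, ‖b x‖ ≤ 2 * β * ‖x‖ := by
    intro x
    have h4 : ‖b x‖ * ‖b x‖ ≤ ‖b x‖ * (2 * β * ‖x‖) := by
      rw [← real_inner_self_eq_norm_mul_norm, hpair]
      calc w (b x) x ≤ ‖w (b x)‖ * ‖x‖ := (le_abs_self _).trans ((w (b x)).le_opNorm _)
        _ ≤ 2 * β * ‖b x‖ * ‖x‖ := mul_le_mul_of_nonneg_right (hw _) (norm_nonneg _)
        _ = _ := by ring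
    rcases (norm_nonneg (b x)).eq_or_lt with h5 | h5
    · rw [← h5]
      positivity
    · exact le_of_mul_le_mul_left h4 h5
  have hlow : ∀ v, M / (8 * Γ) * ‖v‖ ≤ ‖b (a v)‖ := by
    intro v
    have h4 : ‖v‖ * (M / (8 * Γ) * ‖v‖) ≤ ‖v‖ * ‖b (a v)‖ := by
      refine le_trans (le_of_eq (by ring)) ((hco v).trans ?_)
      rw [← hpair]
      exact real_inner_le_norm _ _
    rcases (norm_nonneg v).eq_or_lt with h5 | h5
    · rw [← h5, mul_zero]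
      exact norm_nonneg _
    · exact le_of_mul_le_mul_left h4 h5
  set L : ℝ := ((1 - 3 * θ) / (1 - θ) * M)⁻¹ with hL
  have hLv : ∀ v, ‖v‖ ≤ L * ‖a v‖ := by
    intro v
    rw [hL, ← div_eq_inv_mul, le_div_iff₀ (by positivity), mul_comm]
    exact (ha v).1
  refine (copy_of_lower (LinearMap.toContinuousLinearMap a) b (A := A) (B := 2 * β) (L := L)
    (c := M / (8 * Γ)) (by positivity) (by positivity) (by positivity) (by positivity)
    (fun v => (ha v).2) hB hLv hlow).mono ?_ ?_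
  · have h4 : L * A = (1 + θ) / (1 - 3 * θ) := by
      rw [hL, hA]
      field_simp
    rw [h4, div_le_iff₀ h3θ]
    nlinarith
  · calc A * (2 * β / (M / (8 * Γ))) ≤ 2 * M * (2 * β / (M / (8 * Γ))) := by gcongr
      _ = _ := by
          field_simp
          ring

/-- The dual system given by K-convexity. -/
theorem exists_system {q r C K : ℝ} (hq : 2 ≤ q) (hr : 2 ≤ r) (hC : 0 ≤ C) (hK : 0 ≤ K) :
    ∃ Γ g : ℝ, 0 < Γ ∧ 0 ≤ g ∧ ∀ (X : Type u) [NormedAddCommGroup X] [NormedSpace ℝ X],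
      CotypeWith q C X → CotypeWith r C (X →L[ℝ] ℝ) → KConvexWith K X →
      ∀ (n : ℕ) (T : Eu n →ₗ[ℝ] X) (e : OrthonormalBasis (Fin n) ℝ (Eu n)),
        0 < ∫ x, ‖T x‖ ∂(stdGaussian (Eu n)) → ∃ W : Eu n →ₗ[ℝ] (X →L[ℝ] ℝ), gm W ≤ g ∧
          ∫ x, ‖T x‖ ∂(stdGaussian (Eu n)) ≤ Γ * ∑ i, W (e i) (T (e i)) := by
  obtain ⟨G₁, hG₁0, hG₁⟩ : ∃ G : ℝ, 0 ≤ G ∧
    G = 4 * (C ^ 2 * (2 * (2 * Real.exp ((q * Real.log 4) ^ 2 / 2))) ^ (2 / q)) :=
    ⟨_, by positivity, rfl⟩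
  obtain ⟨G₂, hG₂0, hG₂⟩ : ∃ G : ℝ, 0 ≤ G ∧
    G = 4 * (C ^ 2 * (2 * (2 * Real.exp ((r * Real.log 4) ^ 2 / 2))) ^ (2 / r)) :=
    ⟨_, by positivity, rfl⟩
  refine ⟨√G₁ + 1, G₂ * K ^ 2, by positivity, by positivity,
    fun X _ _ hX hX' hXK n T e hM0 => ?_⟩
  set M := ∫ x, ‖T x‖ ∂(stdGaussian (Eu n)) with hM
  have hMR : M ^ 2 ≤ G₁ * H1.rsq fun i => T (e i) := by
    refine (mean_sq_le T).trans ?_
    rw [gm_eq T e, hG₁]
    exact HM.gsq_le_rsq_of q C hq (HM.cotypeWith_l2 hq hC hX) _ _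
  have hRpos : 0 < H1.rsq fun i => T (e i) := by
    by_contra h
    have h1 := le_antisymm (not_lt.1 h) (H1.rsq_nonneg _)
    rw [h1, mul_zero] at hMR
    exact absurd hMR (not_le.2 (by positivity))
  obtain ⟨y, hy1, hy2⟩ := exists_functionals hK (N111.kconvex_dual hK hXK) _ hRpos
  set W : Eu n →ₗ[ℝ] (X →L[ℝ] ℝ) := e.toBasis.constr ℝ y with hW
  have hWe : ∀ i, W (e i) = y i := by
    intro i
    rw [hW, ← e.coe_toBasis]
    exact e.toBasis.constr_basis ℝ y i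
  refine ⟨W, ?_, ?_⟩
  · rw [gm_eq W e]
    simp only [hWe]
    refine le_trans ?_ (mul_le_mul_of_nonneg_left hy2 hG₂0)
    rw [hG₂]
    exact HM.gsq_le_rsq_of r C hr (HM.cotypeWith_l2 hr hC hX') _ _
  · simp only [hWe, hy1]
    have h1 : M ≤ √G₁ * √(H1.rsq fun i => T (e i)) := by
      rw [← Real.sqrt_mul hG₁0]
      exact Real.le_sqrt_of_sq_le hMR
    exact h1.trans (mul_le_mul_of_nonneg_right (by linarith) (Real.sqrt_nonneg _))

theorem bad_one (T : Eu n →ₗ[ℝ] X) (hT : ∀ v, ‖T v‖ ≤ ‖v‖) {c : ℝ} (hc : 0 < c) :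
    stdGaussian (Eu n) {x | c ≤ |‖T x‖ - ∫ x, ‖T x‖ ∂(stdGaussian (Eu n))|} ≤
      ENNReal.ofReal (5 / c ^ 2) := by
  have hS := sub1_norm T hT
  refine (meas_ge_le_variance_div_sq hS.memLp hc).trans (ENNReal.ofReal_le_ofReal ?_)
  have := hS.variance_le
  gcongr

theorem bad_two (W : Eu n →ₗ[ℝ] X) {δ g : ℝ} (hδ : 0 < δ) (hW : ∀ v, ‖W v‖ ≤ δ * ‖v‖)
    (hg : gm W ≤ g) :
    stdGaussian (Eu n) {x | √g + 1 ≤ ‖W x‖} ≤ ENNReal.ofReal (5 * δ ^ 2) := by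
  have h2 : ∀ x, ‖(δ⁻¹ • W) x‖ = δ⁻¹ * ‖W x‖ := fun x => by
    rw [LinearMap.smul_apply, norm_smul, norm_inv, Real.norm_of_nonneg hδ.le]
  have hV : ∀ v, ‖(δ⁻¹ • W) v‖ ≤ ‖v‖ := by
    intro v
    rw [h2, ← div_eq_inv_mul, div_le_iff₀ hδ, mul_comm]
    exact hW v
  have h1 := bad_one (δ⁻¹ • W) hV (inv_pos.2 hδ)
  rw [inv_pow, div_inv_eq_mul] at h1
  have h3 : ∫ x, ‖W x‖ ∂(stdGaussian (Eu n)) ≤ √g :=
    Real.le_sqrt_of_sq_le ((mean_sq_le W).trans hg)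
  refine le_trans (measure_mono fun x hx => ?_) h1
  have hx' : √g + 1 ≤ ‖W x‖ := hx
  simp only [Set.mem_ofPred_eq, h2]
  rw [integral_const_mul, ← mul_sub]
  refine le_trans ?_ (le_abs_self _)
  exact le_mul_of_one_le_right (by positivity) (by linarith)

theorem arith_one {f θ M : ℝ} (hθ : 0 < θ) (hM : 1 ≤ M) (h : 20 * f / θ ^ 2 ≤ M) :
    f * (5 / (θ * M) ^ 2) ≤ 1 / 4 := by
  rw [div_le_iff₀ (by positivity)] at h
  rw [mul_div_assoc', div_le_iff₀ (by positivity)]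
  have h3 : M * θ ^ 2 ≤ M ^ 2 * θ ^ 2 :=
    mul_le_mul_of_nonneg_right (by nlinarith) (by positivity)
  nlinarith

theorem arith_two {f c a g M Γ : ℝ} (hf : 0 ≤ f) (hc : 0 ≤ c) (hΓ : 0 < Γ) (hM : 1 ≤ M)
    (ha : a ≤ g) (h : 4 * (f * (c * (2 * g)) * (4 * Γ) ^ 2) ≤ M) :
    f * (c * (2 * a) / (M / (4 * Γ)) ^ 2) ≤ 1 / 4 := by
  have h2 : M ≤ M ^ 2 := by nlinarith
  have h3 : f * (c * (2 * a)) * (4 * Γ) ^ 2 ≤ f * (c * (2 * g)) * (4 * Γ) ^ 2 := by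
    gcongr
  rw [div_pow, div_div_eq_mul_div, mul_div_assoc', div_le_iff₀ (by positivity), ← mul_assoc]
  linarith

theorem arith_three {f : ℝ} (hf : 0 ≤ f) : f * (5 * (1 / (20 * f + 1)) ^ 2) ≤ 1 / 4 := by
  have h0 : 0 < 20 * f + 1 := by positivity
  rw [div_pow, one_pow, mul_one_div, mul_div_assoc', div_le_iff₀ (by positivity)]
  nlinarith

theorem arith_four {M Γ R a τ : ℝ} (hΓ : 0 < Γ) (h1 : M ≤ Γ * R) (h2 : 2 * Γ * a ≤ M)
    (h3 : R - a ≤ τ) : 2 * (M / (4 * Γ)) ≤ τ := by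
  rw [mul_div_assoc', div_le_iff₀ (by positivity)]
  have h4 : Γ * (R - a) ≤ Γ * τ := mul_le_mul_of_nonneg_left h3 hΓ.le
  linarith

/-- The random choice. -/
theorem copy_of_system {m : ℕ} (T : Eu n →ₗ[ℝ] X) (hT : ∀ v, ‖T v‖ ≤ ‖v‖)
    (W : Eu n →ₗ[ℝ] (X →L[ℝ] ℝ)) (e : OrthonormalBasis (Fin n) ℝ (Eu n)) {θ M g Γ ε : ℝ}
    (hθ : 0 < θ) (hθ1 : 10 * θ ≤ 1) (hθε : 10 * θ ≤ ε) (hM1 : 1 ≤ M) (hΓ : 0 < Γ)
    (hθ2 : θ * (64 * (√g + 1) * Γ) ≤ 1) {F : Finset (Eu m)} (hF1 : ∀ y ∈ F, ‖y‖ = 1)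
    (hF : ∀ x : Eu m, ‖x‖ = 1 → ∃ y ∈ F, ‖x - y‖ ≤ θ)
    (hM : M = ∫ x, ‖T x‖ ∂(stdGaussian (Eu n)))
    (hW1 : ∀ v, ‖W v‖ ≤ 1 / (20 * (#F : ℕ) + 1) * ‖v‖) (hW2 : gm W ≤ g)
    (hτ : 2 * (M / (4 * Γ)) ≤ ∑ i, W (e i) (T (e i)))
    (hp1 : 20 * ((#F : ℕ) : ℝ) / θ ^ 2 ≤ M)
    (hp2 : 4 * (((#F : ℕ) : ℝ) * (c4 * (2 * g)) * (4 * Γ) ^ 2) ≤ M) :
    HasCopy X 2 m (1 + ε) (32 * (√g + 1) * Γ) := by
  have hM0 : 0 < M := by linarith
  have hτ0 : 0 < M / (4 * Γ) := by positivity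
  have hb1 := bad_one T hT (c := θ * M) (by positivity)
  have hb2 := bad_two W (by positivity) hW1 hW2
  have hb3 := quad_conc W T hT e hτ0
  rw [← hM] at hb1
  have hgW := gm_nonneg W
  have hc4 := c4_nonneg
  have hb := (measure_union_le _ _).trans
    (add_le_add ((measure_union_le _ _).trans (add_le_add hb1 hb2)) hb3)
  rw [← ENNReal.ofReal_add (by positivity) (by positivity),
    ← ENNReal.ofReal_add (by positivity) (by positivity)] at hb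
  obtain ⟨A, hA⟩ := exists_good F hF1 _ hb (by
    rw [mul_add, mul_add]
    have h1 := arith_one hθ hM1 hp1
    have h2 := arith_three (f := (#F : ℕ)) (Nat.cast_nonneg _)
    have h3 := arith_two (Nat.cast_nonneg _) hc4 hΓ hM1 hW2 hp2
    linarith)
  simp only [Set.mem_union, Set.mem_ofPred_eq, not_or, not_le] at hA
  refine copy_of_net (T ∘ₗ A) (W ∘ₗ A) hθ hθ1 hθε hM0 (by positivity) hΓ hθ2 hF1 hF
    (fun y hy => (hA y hy).1.1.le) (fun y hy => (hA y hy).1.2.le) fun y hy => ?_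
  have h1 := (abs_lt.1 (hA y hy).2).1
  simp only [LinearMap.comp_apply]
  linarith

end

/-- **Complemented Euclidean subspaces** of K-convex spaces. -/
theorem copy_two {q r C K : ℝ} (hq : 2 ≤ q) (hr : 2 ≤ r) (hC : 0 ≤ C) (hK : 0 ≤ K) :
    ∃ C₀ : ℝ, ∀ ε : ℝ, 0 < ε → ∀ m : ℕ, ∃ N : ℕ,
      ∀ (X : Type u) [NormedAddCommGroup X] [NormedSpace ℝ X], CotypeWith q C X →
        CotypeWith r C (X →L[ℝ] ℝ) → KConvexWith K X → (N : Cardinal) ≤ Module.rank ℝ X →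
        HasCopy X 2 m (1 + ε) C₀ := by
  obtain ⟨Γ, g, hΓ0, hg0, hsys⟩ := exists_system.{u} hq hr hC hK
  refine ⟨32 * (√g + 1) * Γ, fun ε hε m => ?_⟩
  obtain ⟨θ, hθ0, hθ1, hθε, hθ2⟩ : ∃ θ : ℝ, 0 < θ ∧ 10 * θ ≤ 1 ∧ 10 * θ ≤ ε ∧
      θ * (64 * (√g + 1) * Γ) ≤ 1 := by
    refine ⟨min (min ε 1 / 10) (1 / (64 * (√g + 1) * Γ)),
      lt_min (by have := lt_min hε one_pos; positivity) (by positivity), ?_, ?_, ?_⟩
    · linarith [min_le_right ε 1, min_le_left (min ε 1 / 10) (1 / (64 * (√g + 1) * Γ))]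
    · linarith [min_le_left ε 1, min_le_left (min ε 1 / 10) (1 / (64 * (√g + 1) * Γ))]
    · rw [← le_div_iff₀ (by positivity)]
      exact min_le_right _ _
  obtain ⟨F, hF1, hF⟩ := exists_net m hθ0
  have hδ0 : (0:ℝ) < 1 / (20 * (#F : ℕ) + 1) := by positivity
  obtain ⟨ρ, hρ⟩ := trim.{u} (g := g) hr hC hδ0
  have hc4 := c4_nonneg
  have hp1 : 0 ≤ 20 * ((#F : ℕ) : ℝ) / θ ^ 2 := by positivity
  have hp2 : 0 ≤ 2 * Γ * (ρ * √(2 * g)) := by positivity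
  have hp3 : 0 ≤ 4 * (((#F : ℕ) : ℝ) * (c4 * (2 * g)) * (4 * Γ) ^ 2) := by positivity
  obtain ⟨n, hn⟩ := exists_mean_ge'.{u} (1 + 20 * ((#F : ℕ) : ℝ) / θ ^ 2 +
    2 * Γ * (ρ * √(2 * g)) + 4 * (((#F : ℕ) : ℝ) * (c4 * (2 * g)) * (4 * Γ) ^ 2))
  refine ⟨2 * n, fun X _ _ hX hX' hXK hN => ?_⟩
  obtain ⟨T, hT1, hT2⟩ := exists_DR' n hN
  have hMt := hn T hT1 hT2
  set e := EuclideanSpace.basisFun (Fin n) ℝ with he
  obtain ⟨W, hWg, hMR⟩ := hsys X hX hX' hXK n T e (by linarith)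
  obtain ⟨l, hl, u, hu, hh⟩ := hρ n (X →L[ℝ] ℝ) W hX' hWg
  obtain ⟨W', hW1, hW2, hW3⟩ := exists_trimmed T hT1 W hδ0.le hWg hu hh e
  have h1 : 2 * Γ * (l * √(2 * g)) ≤ 2 * Γ * (ρ * √(2 * g)) := by
    have h2 : (l : ℝ) ≤ ρ := by exact_mod_cast hl
    gcongr
  exact copy_of_system T hT1 W' e hθ0 hθ1 hθε (by linarith) hΓ0 hθ2 hF1 hF rfl hW1 hW2
    (arith_four hΓ0 hMR (by linarith) hW3) (by linarith) (by linarith)

end Vale.Agent.N111L
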