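import Vale.Agent.N111L.DR
import Vale.Agent.N111L.MP
import Mathlib.Analysis.InnerProductSpace.Spectrum

/-!
Gaussian averages of linear maps on Euclidean spaces: trimming of the large singular directions,
and concentration of quadratic forms.
-/

set_option linter.unusedSectionVars false

namespace Vale.Agent.N111L

open Finset Module MeasureTheory ProbabilityTheory Vale.Agent.P111
open scoped RealInnerProductSpace

universe u

/-- Euclidean space. -/
abbrev Eu (n : ℕ) : Type := EuclideanSpace ℝ (Fin n)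

section

variable {n : ℕ} {Y : Type*} [NormedAddCommGroup Y] [NormedSpace ℝ Y]

/-- The Gaussian second moment. -/
noncomputable def gm (T : Eu n →ₗ[ℝ] Y) : ℝ := ∫ x, ‖T x‖ ^ 2 ∂(stdGaussian (Eu n))

theorem gm_nonneg (T : Eu n →ₗ[ℝ] Y) : 0 ≤ gm T := integral_nonneg fun _ => sq_nonneg _

theorem gm_eq (T : Eu n →ₗ[ℝ] Y) (b : OrthonormalBasis (Fin n) ℝ (Eu n)) :
    gm T = H1.gsq fun i => T (b i) := by
  have hc : Continuous fun x => ‖T x‖ ^ 2 := (T.continuous_of_finiteDimensional.norm).pow 2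
  rw [gm, stdGaussian_eq_map_pi_orthonormalBasis b,
    integral_map (Measurable.aemeasurable (by fun_prop)) hc.aestronglyMeasurable]
  unfold H1.gsq H1.gam
  congr 1
  funext x
  simp

theorem rsq_le_gm (T : Eu n →ₗ[ℝ] Y) (b : OrthonormalBasis (Fin n) ℝ (Eu n)) :
    H1.rsq (fun i => T (b i)) ≤ 2 * gm T := by
  refine (H1.rsq_le_gsq _).trans ?_
  rw [← gm_eq]
  refine mul_le_mul_of_nonneg_right ?_ (gm_nonneg T)
  linarith [Real.pi_le_four]

theorem gsq_contract (c : Fin n → ℝ) (hc : ∀ i, |c i| ≤ 1) (y : Fin n → Y) :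
    H1.gsq (fun i => c i • y i) ≤ H1.gsq y := by
  rw [H1.gsq_eq_rsq, H1.gsq_eq_rsq]
  refine integral_mono (H1.integrable_rsq_g _) (H1.integrable_rsq_g _) fun g => ?_
  refine le_trans (le_of_eq ?_) (H1.rsq_contract c hc fun i => g i • y i)
  simp only [smul_comm (g _)]

theorem mean_sq_le (T : Eu n →ₗ[ℝ] Y) :
    (∫ x, ‖T x‖ ∂(stdGaussian (Eu n))) ^ 2 ≤ gm T := by
  set Tc := LinearMap.toContinuousLinearMap T with hTc
  have h0 : MemLp (id : Eu n → Eu n) 2 (stdGaussian (Eu n)) := IsGaussian.memLp_two_id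
  have h1 : MemLp (fun x => ‖T x‖) 2 (stdGaussian (Eu n)) := (Tc.comp_memLp' h0).norm
  have h2 := variance_nonneg (fun x => ‖T x‖) (stdGaussian (Eu n))
  rw [variance_eq_sub h1] at h2
  have h3 : ∫ x, ((fun x => ‖T x‖) ^ 2) x ∂(stdGaussian (Eu n)) = gm T := rfl
  linarith

/-- Orthonormal families are initial pieces of orthonormal bases. -/
theorem exists_basis {l : ℕ} {u : Fin l → Eu n} (hu : Orthonormal ℝ u) :
    ∃ (h : l ≤ n) (b : OrthonormalBasis (Fin n) ℝ (Eu n)), ∀ j, b (Fin.castLE h j) = u j := by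
  have h : l ≤ n := by
    have := hu.linearIndependent.fintype_card_le_finrank
    simpa using this
  let v : Fin n → Eu n := fun i => if h' : (i : ℕ) < l then u ⟨i, h'⟩ else 0
  have hv : Orthonormal ℝ (Set.domRestrict {i : Fin n | (i : ℕ) < l} v) := by
    have h1 : Set.domRestrict {i : Fin n | (i : ℕ) < l} v =
        u ∘ fun i : {i : Fin n | (i : ℕ) < l} => (⟨i.1, i.2⟩ : Fin l) := by
      funext i
      have h2 : ((i : Fin n) : ℕ) < l := i.2
      simp [v, h2]
    rw [h1]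
    refine hu.comp _ fun i j hij => ?_
    exact Subtype.ext (Fin.ext (by simpa using hij))
  obtain ⟨b, hb⟩ := hv.exists_orthonormalBasis_extension_of_card_eq (by simp)
  refine ⟨h, b, fun j => ?_⟩
  rw [hb (Fin.castLE h j) (by simp)]
  simp [v]

theorem orthonormal_cons {l : ℕ} {u : Fin l → Eu n} (hu : Orthonormal ℝ u) {g : Eu n}
    (hg1 : ‖g‖ = 1) (hort : ∀ i, ⟪u i, g⟫ = 0) :
    Orthonormal ℝ (Fin.cons g u : Fin (l + 1) → Eu n) := by
  refine ⟨fun i => ?_, fun i j hij => ?_⟩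
  · refine Fin.cases ?_ (fun i => ?_) i
    · simpa using hg1
    · simpa using hu.1 i
  · revert hij
    refine Fin.cases (Fin.cases ?_ (fun j => ?_) j) (fun i => Fin.cases ?_ (fun j => ?_) j) i
    · intro h; exact absurd rfl h
    · intro _
      simp only [Fin.cons_zero, Fin.cons_succ]
      rw [real_inner_comm]
      exact hort j
    · intro _
      simp only [Fin.cons_zero, Fin.cons_succ]
      exact hort i
    · intro h
      simp only [Fin.cons_succ]
      exact hu.2 fun h' => h (by rw [h'])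

end

/-- Under cotype, a map is small on a subspace of bounded codimension. -/
theorem trim {q C g δ : ℝ} (hq : 2 ≤ q) (hC : 0 ≤ C) (hδ : 0 < δ) : ∃ r : ℕ,
    ∀ (n : ℕ) (Y : Type u) [NormedAddCommGroup Y] [NormedSpace ℝ Y] (W : Eu n →ₗ[ℝ] Y),
      CotypeWith q C Y → gm W ≤ g → ∃ l ≤ r, ∃ u : Fin l → Eu n, Orthonormal ℝ u ∧
        ∀ h, (∀ i, ⟪u i, h⟫ = 0) → ‖W h‖ ≤ δ * ‖h‖ := by
  have hq0 : 0 < q := by linarith
  obtain ⟨r, hr⟩ := exists_nat_gt ((C * √(2 * g) / δ) ^ q)
  refine ⟨r, fun n Y _ _ W hY hW => ?_⟩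
  by_contra hcon
  push Not at hcon
  have hall : ∀ l ≤ r, ∃ u : Fin l → Eu n, Orthonormal ℝ u ∧ ∀ i, δ ≤ ‖W (u i)‖ := by
    intro l
    induction l with
    | zero => exact fun _ => ⟨fun i => i.elim0, ⟨fun i => i.elim0, fun i => i.elim0⟩,
        fun i => i.elim0⟩
    | succ l ih =>
      intro hl
      obtain ⟨u, hu, hu2⟩ := ih (by omega)
      obtain ⟨h, hh1, hh2⟩ := hcon l (by omega) u hu
      have hh0 : h ≠ 0 := by
        rintro rfl
        simp at hh2
      have hn : 0 < ‖h‖ := norm_pos_iff.2 hh0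
      refine ⟨Fin.cons (‖h‖⁻¹ • h) u, orthonormal_cons hu ?_ fun i => ?_, fun i => ?_⟩
      · rw [norm_smul, norm_inv, norm_norm, inv_mul_cancel₀ hn.ne']
      · rw [inner_smul_right, hh1 i, mul_zero]
      · refine Fin.cases ?_ (fun i => ?_) i
        · simp only [Fin.cons_zero, map_smul, norm_smul, norm_inv, norm_norm]
          rw [← div_eq_inv_mul, le_div_iff₀ hn]
          exact hh2.le
        · simpa using hu2 i
  obtain ⟨u, hu, hu2⟩ := hall r le_rfl
  obtain ⟨h, b, hb⟩ := exists_basis hu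
  have h1 : H1.rsq (fun j => W (u j)) ≤ 2 * g := by
    have h2 := rsq_comp_le (fun i => W (b i)) (Fin.castLE h) (Fin.castLE_injective h)
    simp only [hb] at h2
    exact h2.trans ((rsq_le_gm W b).trans (by linarith))
  have h3 := hY r fun j => W (u j)
  have h4 : (avg fun ε : Fin r → ℤˣ => ‖∑ i, sg (ε i) • W (u i)‖ ^ 2) ^ (1 / 2 : ℝ) ≤
      √(2 * g) := by
    rw [← Real.sqrt_eq_rpow]
    exact Real.sqrt_le_sqrt h1
  have h5 : ((r : ℝ) * δ ^ q) ^ (1 / q) ≤ C * √(2 * g) := by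
    refine le_trans ?_ (h3.trans (mul_le_mul_of_nonneg_left h4 hC))
    refine Real.rpow_le_rpow (by positivity) ?_ (by positivity)
    calc (r : ℝ) * δ ^ q = ∑ _i : Fin r, δ ^ q := by simp
      _ ≤ _ := Finset.sum_le_sum fun i _ => Real.rpow_le_rpow hδ.le (hu2 i) hq0.le
  have h6 := Real.rpow_le_rpow (by positivity) h5 hq0.le
  rw [← Real.rpow_mul (by positivity), one_div_mul_cancel hq0.ne', Real.rpow_one] at h6
  rw [Real.div_rpow (by positivity) hδ.le, div_lt_iff₀ (by positivity)] at hr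
  linarith

section

variable {n : ℕ} {X : Type*} [NormedAddCommGroup X] [NormedSpace ℝ X]

theorem apply_expand (W : Eu n →ₗ[ℝ] (X →L[ℝ] ℝ)) (T : Eu n →ₗ[ℝ] X)
    (b : OrthonormalBasis (Fin n) ℝ (Eu n)) (x y : Eu n) :
    W x (T y) = ∑ i, ∑ j, ⟪b i, x⟫ * ⟪b j, y⟫ * W (b i) (T (b j)) := by
  conv_lhs => rw [← b.sum_repr' x, ← b.sum_repr' y]
  simp only [map_sum, map_smul, _root_.sum_apply, smul_apply,
    smul_eq_mul, Finset.mul_sum]
  rw [Finset.sum_comm]
  refine Finset.sum_congr rfl fun i _ => Finset.sum_congr rfl fun j _ => ?_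
  ring

/-- The trace does not depend on the basis. -/
theorem trace_eq (W : Eu n →ₗ[ℝ] (X →L[ℝ] ℝ)) (T : Eu n →ₗ[ℝ] X)
    (b c : OrthonormalBasis (Fin n) ℝ (Eu n)) :
    ∑ i, W (c i) (T (c i)) = ∑ i, W (b i) (T (b i)) := by
  simp only [apply_expand W T b (c _) (c _)]
  rw [Finset.sum_comm]
  refine Finset.sum_congr rfl fun i _ => ?_
  rw [Finset.sum_comm]
  have h1 : ∀ j, ∑ k, ⟪b i, c k⟫ * ⟪b j, c k⟫ * W (b i) (T (b j)) =
      (if i = j then 1 else 0) * W (b i) (T (b j)) := by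
    intro j
    rw [← Finset.sum_mul]
    congr 1
    rw [← orthonormal_iff_ite.1 b.orthonormal i j, ← c.sum_inner_mul_inner]
    exact Finset.sum_congr rfl fun k _ => by rw [real_inner_comm (c k) (b j)]
  simp [h1]

theorem exists_diag (W : Eu n →ₗ[ℝ] (X →L[ℝ] ℝ)) (T : Eu n →ₗ[ℝ] X) :
    ∃ b : OrthonormalBasis (Fin n) ℝ (Eu n), ∀ i j, i ≠ j →
      W (b i) (T (b j)) + W (b j) (T (b i)) = 0 := by
  set e := EuclideanSpace.basisFun (Fin n) ℝ with he
  let S : Eu n →ₗ[ℝ] Eu n :=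
    { toFun := fun x => ∑ i, (W x (T (e i)) + W (e i) (T x)) • e i
      map_add' := fun x y => by
        rw [← Finset.sum_add_distrib]
        refine Finset.sum_congr rfl fun i _ => ?_
        simp only [map_add, add_apply, ← add_smul]
        congr 1
        ring
      map_smul' := fun c x => by
        rw [Finset.smul_sum]
        refine Finset.sum_congr rfl fun i _ => ?_
        simp only [map_smul, smul_apply, smul_eq_mul, RingHom.id_apply,
          smul_smul]
        congr 1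
        ring }
  have hS : ∀ x y, ⟪S x, y⟫ = W x (T y) + W y (T x) := by
    intro x y
    change ⟪∑ i, (W x (T (e i)) + W (e i) (T x)) • e i, y⟫ = _
    conv_rhs => rw [← e.sum_repr' y]
    simp only [sum_inner, real_inner_smul_left, map_sum, map_smul, _root_.sum_apply,
      smul_apply, smul_eq_mul, ← Finset.sum_add_distrib]
    refine Finset.sum_congr rfl fun i _ => ?_
    ring
  have hsym : S.IsSymmetric := by
    intro x y
    rw [hS, real_inner_comm, hS, add_comm]
  have hn : finrank ℝ (Eu n) = n := by simp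
  refine ⟨hsym.eigenvectorBasis hn, fun i j hij => ?_⟩
  rw [← hS, hsym.apply_eigenvectorBasis, real_inner_smul_left,
    (hsym.eigenvectorBasis hn).orthonormal.2 hij, mul_zero]

theorem sum_diag_sq_le (W : Eu n →ₗ[ℝ] (X →L[ℝ] ℝ)) (T : Eu n →ₗ[ℝ] X) (hT : ∀ v, ‖T v‖ ≤ ‖v‖)
    (b : OrthonormalBasis (Fin n) ℝ (Eu n)) :
    ∑ i, W (b i) (T (b i)) ^ 2 ≤ 2 * gm W := by
  refine le_trans ?_ (rsq_le_gm W b)
  have h1 : ∀ φ : X →L[ℝ] ℝ, ∑ i, φ (T (b i)) ^ 2 ≤ ‖φ‖ ^ 2 := by
    intro φ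
    have h2 := b.norm_dual (φ ∘L LinearMap.toContinuousLinearMap T)
    have h3 : ‖φ ∘L LinearMap.toContinuousLinearMap T‖ ≤ ‖φ‖ := by
      refine ContinuousLinearMap.opNorm_le_bound _ (norm_nonneg _) fun v => ?_
      exact (φ.le_opNorm _).trans (mul_le_mul_of_nonneg_left (hT v) (norm_nonneg _))
    calc ∑ i, φ (T (b i)) ^ 2 = ‖φ ∘L LinearMap.toContinuousLinearMap T‖ ^ 2 := h2.symm
      _ ≤ _ := pow_le_pow_left₀ (norm_nonneg _) h3 2
  calc ∑ i, W (b i) (T (b i)) ^ 2
      ≤ ∑ i, avg fun δ : Fin n → ℤˣ => ((∑ j, sg (δ j) • W (b j)) (T (b i))) ^ 2 := by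
        refine Finset.sum_le_sum fun i _ => ?_
        have h2 := norm_sq_le_rsq (fun j => W (b j) (T (b i))) i
        rw [Real.norm_eq_abs, sq_abs] at h2
        refine h2.trans (le_of_eq (avg_congr fun δ => ?_))
        rw [Real.norm_eq_abs, sq_abs]
        simp
    _ = avg fun δ : Fin n → ℤˣ => ∑ i, ((∑ j, sg (δ j) • W (b j)) (T (b i))) ^ 2 :=
        (avg_sum _ _).symm
    _ ≤ _ := avg_mono fun δ => h1 _

/-- The variance of the square of a standard Gaussian variable. -/
noncomputable def c4 : ℝ := Var[fun x : ℝ => x ^ 2; gaussianReal 0 1]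

theorem c4_nonneg : 0 ≤ c4 := variance_nonneg _ _

theorem memLp_sq : MemLp (fun x : ℝ => x ^ 2) 2 (gaussianReal 0 1) := by
  have h : MemLp (id : ℝ → ℝ) 4 (gaussianReal 0 1) := memLp_id_gaussianReal' 4 (by norm_num)
  have h2 : ENNReal.HolderTriple 4 4 2 := ⟨by
    rw [← two_mul, show (4 : ENNReal) = 2 * 2 by norm_num,
      ENNReal.mul_inv (by norm_num) (by norm_num), ← mul_assoc,
      ENNReal.mul_inv_cancel (by norm_num) (by norm_num), one_mul]⟩
  have h3 : MemLp (id * id : ℝ → ℝ) 2 (gaussianReal 0 1) := h.mul h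
  convert h3 using 1
  funext x
  simp [sq]

/-- Concentration of quadratic forms. -/
theorem quad_conc (W : Eu n →ₗ[ℝ] (X →L[ℝ] ℝ)) (T : Eu n →ₗ[ℝ] X) (hT : ∀ v, ‖T v‖ ≤ ‖v‖)
    (e : OrthonormalBasis (Fin n) ℝ (Eu n)) {t : ℝ} (ht : 0 < t) :
    stdGaussian (Eu n) {x | t ≤ |W x (T x) - ∑ i, W (e i) (T (e i))|} ≤
      ENNReal.ofReal (c4 * (2 * gm W) / t ^ 2) := by
  obtain ⟨b, hb⟩ := exists_diag W T
  rw [trace_eq W T b e]
  set lam : Fin n → ℝ := fun i => W (b i) (T (b i)) with hlam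
  have hZ : ∀ x : Fin n → ℝ, W (∑ i, x i • b i) (T (∑ i, x i • b i)) = ∑ i, lam i * x i ^ 2 := by
    intro x
    have h1 : W (∑ i, x i • b i) (T (∑ i, x i • b i)) =
        ∑ i, ∑ j, x i * x j * W (b i) (T (b j)) := by
      simp only [map_sum, map_smul, _root_.sum_apply, smul_apply,
        smul_eq_mul, Finset.mul_sum]
      rw [Finset.sum_comm]
      refine Finset.sum_congr rfl fun i _ => Finset.sum_congr rfl fun j _ => ?_
      ring
    have h2 : ∑ i, ∑ j, x i * x j * W (b i) (T (b j)) =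
        ∑ i, ∑ j, x i * x j * W (b j) (T (b i)) := by
      rw [Finset.sum_comm]
      refine Finset.sum_congr rfl fun i _ => Finset.sum_congr rfl fun j _ => ?_
      ring
    have h3 : ∑ i, ∑ j, x i * x j * W (b i) (T (b j)) + ∑ i, ∑ j, x i * x j * W (b j) (T (b i)) =
        2 * ∑ i, lam i * x i ^ 2 := by
      rw [← Finset.sum_add_distrib, Finset.mul_sum]
      refine Finset.sum_congr rfl fun i _ => ?_
      rw [← Finset.sum_add_distrib, Finset.sum_eq_single i]
      · simp only [hlam]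
        ring
      · intro j _ hj
        rw [← mul_add, hb i j (Ne.symm hj), mul_zero]
      · intro h
        exact absurd (Finset.mem_univ i) h
    linarith
  have hc : Continuous fun x => W x (T x) := by
    have h1 : Continuous W := W.continuous_of_finiteDimensional
    have h2 : Continuous T := T.continuous_of_finiteDimensional
    fun_prop
  have hms : MeasurableSet {x | t ≤ |W x (T x) - ∑ i, lam i|} :=
    measurableSet_le measurable_const (Continuous.measurable (by fun_prop))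
  rw [stdGaussian_eq_map_pi_orthonormalBasis b, Measure.map_apply (by fun_prop) hms]
  set μ : Measure (Fin n → ℝ) := Measure.pi fun _ => gaussianReal 0 1 with hμ
  have hi : ∀ i, MemLp (fun s : ℝ => lam i * s ^ 2) 2 (gaussianReal 0 1) := fun i =>
    memLp_sq.const_mul _
  have hi' : ∀ i, MemLp (fun x : Fin n → ℝ => lam i * x i ^ 2) 2 μ := fun i =>
    (hi i).comp_measurePreserving (measurePreserving_eval _ i)
  set Z : (Fin n → ℝ) → ℝ := ∑ i, fun x : Fin n → ℝ => lam i * x i ^ 2 with hZd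
  have hZa : ∀ x, Z x = ∑ i, lam i * x i ^ 2 := fun x => by simp [hZd]
  have hZm : MemLp Z 2 μ := memLp_finsetSum' _ fun i _ => hi' i
  have hmean : ∫ x, Z x ∂μ = ∑ i, lam i := by
    simp only [hZa]
    rw [integral_finsetSum _ fun i _ => (hi' i).integrable one_le_two]
    refine Finset.sum_congr rfl fun i _ => ?_
    rw [integral_const_mul]
    have := H1.integral_coord_sq (ι := Fin n) i
    unfold H1.gam at this
    rw [this, mul_one]
  have hvar : Var[Z; μ] ≤ c4 * (2 * gm W) := by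
    rw [hZd, hμ, variance_sum_pi (X := fun i (s : ℝ) => lam i * s ^ 2) hi]
    have h1 : ∀ i, Var[fun s : ℝ => lam i * s ^ 2; gaussianReal 0 1] = c4 * lam i ^ 2 := by
      intro i
      rw [variance_const_mul, c4, mul_comm]
    simp only [h1]
    rw [← Finset.mul_sum]
    exact mul_le_mul_of_nonneg_left (sum_diag_sq_le W T hT b) c4_nonneg
  have h1 := meas_ge_le_variance_div_sq hZm ht
  rw [hmean] at h1
  refine le_trans (le_of_eq ?_) (h1.trans (ENNReal.ofReal_le_ofReal (by gcongr)))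
  congr 1
  ext x
  simp only [Set.mem_preimage, Set.mem_ofPred_eq, hZ, hZa]

end

end Vale.Agent.N111L
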