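import Vale.Agent.N111L.Euclid

/-!
The bridge to the measure theoretic definitions, and the main theorems.
-/

set_option linter.unusedSectionVars false

namespace Vale.Agent.N111L

open Finset Module MeasureTheory ProbabilityTheory Filter Vale.Agent.P111
open scoped ENNReal

universe u

/-- Booleans as signs. -/
def bsign : Bool ≃ ℤˣ where
  toFun b := if b then 1 else -1
  invFun u := decide (u = 1)
  left_inv b := by cases b <;> simp
  right_inv u := by rcases Int.units_eq_one_or u with rfl | rfl <;> simp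

theorem sg_bsign (b : Bool) : sg (bsign b) = sgn b := by
  cases b <;> simp [bsign, sg, sgn]

/-- The two models of the discrete cube. -/
def bcube (s : ℕ) : (Fin s → Bool) ≃ (Fin s → ℤˣ) := Equiv.piCongrRight fun _ => bsign

theorem sg_bcube {s : ℕ} (ε : Fin s → Bool) (i : Fin s) : sg (bcube s ε i) = sgn (ε i) :=
  sg_bsign _

theorem cube_prob (s : ℕ) : IsProbabilityMeasure (cube s) := by
  unfold cube
  infer_instance

section

variable {X : Type*} [NormedAddCommGroup X] [NormedSpace ℝ X]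

theorem integral_cube [CompleteSpace X] {s : ℕ} (F : (Fin s → Bool) → X) :
    ∫ η, F η ∂cube s = avg F := by
  have := cube_prob s
  rw [integral_fintype Integrable.of_finite, avg, Finset.smul_sum]
  refine Finset.sum_congr rfl fun η _ => ?_
  congr 1
  rw [Measure.real, cube, uniformOn_univ, Measure.count_singleton]
  simp

theorem eLp_cube {s : ℕ} (F : (Fin s → ℤˣ) → X) :
    eLpNorm (fun η => F (bcube s η)) 2 (cube s) =
      ENNReal.ofReal ((avg fun ε => ‖F ε‖ ^ 2) ^ (1 / 2 : ℝ)) := by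
  have := cube_prob s
  rw [MemLp.of_discrete.eLpNorm_eq_integral_rpow_norm two_ne_zero ENNReal.ofNat_ne_top,
    integral_cube, ← avg_comp_equiv (bcube s) fun ε => ‖F ε‖ ^ 2]
  simp

theorem radProj_eq [CompleteSpace X] {s : ℕ} (f : (Fin s → ℤˣ) → X) :
    radProj X (fun η => f (bcube s η)) = fun ε => rad f (bcube s ε) := by
  funext ε
  unfold radProj rad
  refine Finset.sum_congr rfl fun i _ => ?_
  rw [integral_cube, sg_bcube, ← avg_comp_equiv (bcube s) fun η => sg (η i) • f η]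
  simp only [sg_bcube]

theorem hasCotype_of_const {q : ℝ} (hq : 2 ≤ q) (h : cotypeConst X q < ∞) : HasCotype q X := by
  obtain ⟨C, hC, hlt⟩ := sInf_lt_iff.1 h
  refine ⟨hq, C.toReal, fun n y => ?_⟩
  have h1 := hC n y
  have h2 := eLp_cube fun ε : Fin n → ℤˣ => ∑ i, sg (ε i) • y i
  simp only [sg_bcube] at h2
  have hq0 : 0 ≤ q := by linarith
  have h3 : ∑ i, ‖y i‖ₑ ^ q = ENNReal.ofReal (∑ i, ‖y i‖ ^ q) := by
    rw [ENNReal.ofReal_sum_of_nonneg fun i _ => by positivity]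
    refine Finset.sum_congr rfl fun i _ => ?_
    rw [← ofReal_norm, ENNReal.ofReal_rpow_of_nonneg (norm_nonneg _) hq0]
  rw [h2, h3, ENNReal.ofReal_rpow_of_nonneg (Finset.sum_nonneg fun i _ => by positivity)
    (by positivity), ← ENNReal.ofReal_toReal hlt.ne, ← ENNReal.ofReal_mul ENNReal.toReal_nonneg,
    ENNReal.ofReal_le_ofReal_iff (mul_nonneg ENNReal.toReal_nonneg
      (Real.rpow_nonneg (avg_nonneg fun _ => sq_nonneg _) _))] at h1
  exact h1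

theorem kConst_le [CompleteSpace X] {K : ℝ} (hK : 0 ≤ K) (h : KConvexWith K X) :
    kConst X ≤ ENNReal.ofReal K := by
  refine iSup_le fun s => iSup_le fun f => iSup_le fun hf => ?_
  obtain ⟨g, rfl⟩ : ∃ g : (Fin s → ℤˣ) → X, f = fun η => g (bcube s η) :=
    ⟨fun δ => f ((bcube s).symm δ), by simp⟩
  rw [eLp_cube, ENNReal.ofReal_le_one] at hf
  rw [radProj_eq, eLp_cube]
  exact ENNReal.ofReal_le_ofReal ((h s g).trans (mul_le_of_le_one_right hK hf))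

theorem kConst_lt [CompleteSpace X] (h : IsKConvex X) : kConst X < ∞ := by
  obtain ⟨K, hK⟩ := h
  refine (kConst_le (le_max_right K 0) fun n f => (hK n f).trans ?_).trans_lt
    ENNReal.ofReal_lt_top
  exact mul_le_mul_of_nonneg_right (le_max_left _ _)
    (Real.rpow_nonneg (avg_nonneg fun _ => sq_nonneg _) _)

theorem l2_smul {Ω : Type*} [Fintype Ω] (c : ℝ) (hc : 0 ≤ c) (f : Ω → X) :
    (avg fun ω => ‖c • f ω‖ ^ 2) ^ (1 / 2 : ℝ) = c * (avg fun ω => ‖f ω‖ ^ 2) ^ (1 / 2 : ℝ) := by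
  simp only [norm_smul, mul_pow, Real.norm_of_nonneg hc]
  rw [avg_mul_left, ← Real.sqrt_eq_rpow, ← Real.sqrt_eq_rpow, Real.sqrt_mul (sq_nonneg c),
    Real.sqrt_sq hc]

theorem isKConvex_of_const [CompleteSpace X] (h : kConst X < ∞) : IsKConvex X := by
  refine ⟨(kConst X).toReal, fun n f => ?_⟩
  set a := (avg fun ε => ‖f ε‖ ^ 2) ^ (1 / 2 : ℝ) with ha
  have ha0 : 0 ≤ a := Real.rpow_nonneg (avg_nonneg fun _ => sq_nonneg _) _
  have key : ∀ t, a < t → (avg fun ε => ‖rad f ε‖ ^ 2) ^ (1 / 2 : ℝ) ≤ (kConst X).toReal * t := by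
    intro t ht
    have ht0 : 0 < t := ha0.trans_lt ht
    have h1 : eLpNorm (fun η => t⁻¹ • f (bcube n η)) 2 (cube n) ≤ 1 := by
      rw [eLp_cube fun δ => t⁻¹ • f δ, l2_smul _ (by positivity), ENNReal.ofReal_le_one,
        ← div_eq_inv_mul, div_le_one ht0]
      exact ht.le
    have h2 : eLpNorm (radProj X fun η => t⁻¹ • f (bcube n η)) 2 (cube n) ≤ kConst X :=
      le_iSup_of_le n (le_iSup_of_le _ (le_iSup_of_le h1 le_rfl))
    have h3 : ∀ ε, rad (fun δ => t⁻¹ • f δ) ε = t⁻¹ • rad f ε := by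
      intro ε
      unfold rad
      rw [Finset.smul_sum]
      refine Finset.sum_congr rfl fun i _ => ?_
      rw [smul_comm t⁻¹, ← avg_smul t⁻¹]
      simp only [smul_comm t⁻¹]
    rw [radProj_eq fun δ => t⁻¹ • f δ, eLp_cube, ENNReal.ofReal_le_iff_le_toReal h.ne] at h2
    simp only [h3] at h2
    rw [l2_smul _ (by positivity), ← div_eq_inv_mul, div_le_iff₀ ht0] at h2
    exact h2
  have h4 : Tendsto (fun t => (kConst X).toReal * t) (nhdsWithin a (Set.Ioi a))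
      (nhds ((kConst X).toReal * a)) :=
    ((continuous_const.mul continuous_id).tendsto a).mono_left nhdsWithin_le_nhds
  exact ge_of_tendsto h4 (eventually_nhdsWithin_of_forall key)

theorem AP.hasAP (h : AP X) : N111.HasAP X := by
  intro M hM δ hδ
  obtain ⟨S, h1, -, h2⟩ := h M hM δ hδ
  exact ⟨S, h1, h2⟩

theorem BAP.hasAP (h : BAP X) : N111.HasAP X := by
  obtain ⟨lam, -, h⟩ := h
  intro M hM δ hδ
  obtain ⟨S, h1, -, h2⟩ := h M hM δ hδ
  exact ⟨S, h1, h2⟩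

theorem hasAP_of_finite [FiniteDimensional ℝ X] : N111.HasAP X := fun _ _ δ hδ =>
  ⟨ContinuousLinearMap.id ℝ X, inferInstance, fun x _ => by simpa using hδ⟩

/-- A space of finite cotype does not contain the `ℓ_∞^n` uniformly. -/
theorem not_copy_top {q D : ℝ} (h : HasCotype q X) : ¬ ∀ n, HasCopy X ∞ n D D := by
  intro hc
  obtain ⟨hq, C, hC⟩ := h
  have hq0 : 0 < q := by linarith
  have hC' : CotypeWith q (max C 0) X := EZ.CotypeWith.mono' hC (le_max_left _ _)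
  have key : ∀ n : ℕ, ((n + 1 : ℕ) : ℝ) ^ (1 / q) ≤ max C 0 * D := by
    intro n
    obtain ⟨P, T, -, -, hT⟩ := hc (n + 1)
    set a := ‖T.toContinuousLinearMap‖ with ha
    set b := ‖T.symm.toContinuousLinearMap‖ with hb
    have ha0 : 0 ≤ a := ContinuousLinearMap.opNorm_nonneg _
    have hb0 : 0 ≤ b := ContinuousLinearMap.opNorm_nonneg _
    set v : Fin (n + 1) → PiLp ∞ fun _ : Fin (n + 1) => ℝ := fun i => PiLp.single ∞ i 1 with hv
    set y : Fin (n + 1) → X := fun i => a • (T.symm (v i) : X) with hy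
    have h1 : ∀ i, 1 ≤ ‖y i‖ := by
      intro i
      have h2 := T.toContinuousLinearMap.le_opNorm (T.symm (v i))
      rw [hy]
      simp only [norm_smul, Real.norm_of_nonneg ha0]
      simpa [hv] using h2
    have h2 : ∀ δ : Fin (n + 1) → ℤˣ, ‖∑ i, sg (δ i) • y i‖ ≤ D := by
      intro δ
      have h3 : ∑ i, sg (δ i) • y i = a • (T.symm (∑ i, sg (δ i) • v i) : X) := by
        simp [hy, Finset.smul_sum, smul_comm a]
      have h4 : ‖∑ i, sg (δ i) • v i‖ ≤ 1 := by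
        rw [PiLp.norm_eq_ciSup]
        refine ciSup_le fun j => ?_
        simp [hv, Pi.single_apply]
      have h5 := T.symm.toContinuousLinearMap.le_opNorm (∑ i, sg (δ i) • v i)
      rw [h3, norm_smul, Real.norm_of_nonneg ha0]
      refine le_trans (mul_le_mul_of_nonneg_left (h5.trans ?_) ha0) hT
      exact mul_le_of_le_one_right hb0 h4
    have hD : 0 ≤ D := (norm_nonneg _).trans (h2 1)
    refine le_trans ?_ ((hC' _ y).trans (mul_le_mul_of_nonneg_left ?_ (le_max_right _ _)))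
    · refine Real.rpow_le_rpow (Nat.cast_nonneg _) ?_ (by positivity)
      refine le_trans ?_ (Finset.sum_le_sum fun i _ => Real.one_le_rpow (h1 i) hq0.le)
      simp
    · rw [← Real.sqrt_eq_rpow]
      refine (Real.sqrt_le_left hD).2 ((avg_mono fun δ =>
        pow_le_pow_left₀ (norm_nonneg _) (h2 δ) 2).trans (avg_const _).le)
  have h6 : Tendsto (fun n : ℕ => ((n + 1 : ℕ) : ℝ) ^ (1 / q)) atTop atTop :=
    (tendsto_rpow_atTop (by positivity)).comp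
      (tendsto_natCast_atTop_atTop.comp (tendsto_add_atTop_nat 1))
  obtain ⟨n, hn⟩ := (h6.eventually_gt_atTop (max C 0 * D)).exists
  exact absurd (key n) (not_le.2 hn)

theorem HasCopy.finrank_eq {p : ℝ≥0∞} [Fact (1 ≤ p)] {n : ℕ} {D C : ℝ} (h : HasCopy X p n D C) :
    ∃ P : X →L[ℝ] X, P ∘L P = P ∧ ‖P‖ ≤ C ∧ finrank ℝ P.range = n := by
  obtain ⟨P, T, h1, h2, -⟩ := h
  refine ⟨P, h1, h2, ?_⟩
  rw [T.toLinearEquiv.finrank_eq, (WithLp.linearEquiv p ℝ _).finrank_eq]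
  simp

theorem finrank_le_add [FiniteDimensional ℝ X] (P : X →L[ℝ] X) :
    finrank ℝ X ≤ finrank ℝ P.range + finrank ℝ (1 - P).range := by
  refine le_trans ?_ (Submodule.finrank_add_le_finrank_add_finrank _ _)
  rw [← finrank_top]
  refine Submodule.finrank_mono fun x _ => Submodule.mem_sup.2 ⟨P x, ⟨x, rfl⟩, (1 - P) x,
    ⟨x, rfl⟩, by simp⟩

end

/-- The uniform theorem, with two sets of parameters. -/
theorem core (k₁ k₂ : ℕ) {ε₁ ε₂ : ℝ} (h₁ : 0 < ε₁) (h₂ : 0 < ε₂) : ∃ C : ℝ, 0 ≤ C ∧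
    (∀ (X : Type u) [NormedAddCommGroup X] [NormedSpace ℝ X], N111.HasAP X →
      ¬ HasCopy X ∞ k₁ (1 + ε₁) (1 + ε₁) → ¬ HasCopy X 1 k₂ (1 + ε₂) (1 + ε₂) →
      KConvexWith C X) ∧
    ∀ δ : ℝ, 0 < δ → ∀ m : ℕ, ∃ N : ℕ,
      ∀ (X : Type u) [NormedAddCommGroup X] [NormedSpace ℝ X], N111.HasAP X →
      ¬ HasCopy X ∞ k₁ (1 + ε₁) (1 + ε₁) → ¬ HasCopy X 1 k₂ (1 + ε₂) (1 + ε₂) →
      (N : Cardinal) ≤ Module.rank ℝ X → HasCopy X 2 m (1 + δ) C := by
  have small : ∀ ε : ℝ, 0 < ε → ∃ e : ℝ, 0 < e ∧ 20 * e ≤ ε ∧ 20 * e ≤ 1 := fun ε hε =>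
    ⟨min ε 1 / 20, by have := lt_min hε one_pos; positivity, by linarith [min_le_left ε 1],
      by linarith [min_le_right ε 1]⟩
  obtain ⟨e₁, a1, a2, a3⟩ := small ε₁ h₁
  obtain ⟨e₂, b1, b2, b3⟩ := small ε₂ h₂
  obtain ⟨q, C₁, hq, hC₁, H₁⟩ := cotype_of_not_near.{u} k₁ a1
  obtain ⟨r, C₂, hr, -, H₂⟩ := cotype_of_not_near.{u} k₂ b1
  have hC : 0 ≤ max C₁ C₂ := hC₁.trans (le_max_left _ _)
  obtain ⟨K, hK, H⟩ := N111.space_uniform.{u} hq hr (max C₁ C₂)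
  obtain ⟨C₀, H₀⟩ := copy_two.{u} hq hr hC hK
  have co : ∀ (X : Type u) [NormedAddCommGroup X] [NormedSpace ℝ X],
      ¬ HasCopy X ∞ k₁ (1 + ε₁) (1 + ε₁) → ¬ HasCopy X 1 k₂ (1 + ε₂) (1 + ε₂) →
      CotypeWith q (max C₁ C₂) X ∧ CotypeWith r (max C₁ C₂) (X →L[ℝ] ℝ) := fun X _ _ c1 c2 =>
    ⟨EZ.CotypeWith.mono' (H₁ X fun h => c1 (copy_top a1 a2 a3 h)) (le_max_left _ _),
      EZ.CotypeWith.mono' (H₂ _ fun h => c2 (copy_one b1 b2 b3 h)) (le_max_right _ _)⟩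
  refine ⟨max K C₀, hK.trans (le_max_left _ _), fun X _ _ hX c1 c2 n f => ?_, fun δ hδ m => ?_⟩
  · exact ((H X hX (co X c1 c2).1 (co X c1 c2).2).1 n f).trans (mul_le_mul_of_nonneg_right
      (le_max_left _ _) (Real.rpow_nonneg (avg_nonneg fun _ => sq_nonneg _) _))
  · obtain ⟨N, hN⟩ := H₀ δ hδ m
    exact ⟨N, fun X _ _ hX c1 c2 hd => (hN X (co X c1 c2).1 (co X c1 c2).2
      (H X hX (co X c1 c2).1 (co X c1 c2).2).1 hd).mono le_rfl (le_max_right _ _)⟩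

section

variable (X : Type u) [NormedAddCommGroup X] [NormedSpace ℝ X]

theorem trichotomy (hX : N111.HasAP X) :
    (∀ ε : ℝ, 0 < ε → ∀ n, HasCopy X ∞ n (1 + ε) (1 + ε)) ∨
    (∀ ε : ℝ, 0 < ε → ∀ n, HasCopy X 1 n (1 + ε) (1 + ε)) ∨
    (IsKConvex X ∧ (¬ FiniteDimensional ℝ X →
      ∃ C, ∀ ε : ℝ, 0 < ε → ∀ n, HasCopy X 2 n (1 + ε) C)) := by
  by_cases c1 : ∀ ε : ℝ, 0 < ε → ∀ n, HasCopy X ∞ n (1 + ε) (1 + ε)
  · exact Or.inl c1
  by_cases c2 : ∀ ε : ℝ, 0 < ε → ∀ n, HasCopy X 1 n (1 + ε) (1 + ε)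
  · exact Or.inr (Or.inl c2)
  push Not at c1 c2
  obtain ⟨ε₁, h₁, k₁, c1⟩ := c1
  obtain ⟨ε₂, h₂, k₂, c2⟩ := c2
  obtain ⟨C, -, H1, H2⟩ := core.{u} k₁ k₂ h₁ h₂
  refine Or.inr (Or.inr ⟨⟨C, H1 X hX c1 c2⟩, fun hd => ⟨C, fun ε hε n => ?_⟩⟩)
  obtain ⟨N, hN⟩ := H2 ε hε n
  refine hN X hX c1 c2 (Cardinal.natCast_le_aleph0.trans (not_lt.1 fun h => hd ?_))
  exact Module.rank_lt_aleph0_iff.1 h

theorem kConst_eq_top_iff [CompleteSpace X] (hX : N111.HasAP X) :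
    kConst X = ∞ ↔ (∀ ε : ℝ, 0 < ε → ∀ n, HasCopy X ∞ n (1 + ε) (1 + ε)) ∨
      ∀ ε : ℝ, 0 < ε → ∀ n, HasCopy X 1 n (1 + ε) (1 + ε) := by
  constructor
  · intro h
    rcases trichotomy X hX with h1 | h1 | h1
    · exact Or.inl h1
    · exact Or.inr h1
    · exact absurd h (kConst_lt h1.1).ne
  · intro h
    by_contra hK
    obtain ⟨⟨q, hq⟩, r, hr⟩ := N111.cotypes_of_kconvex (isKConvex_of_const (lt_top_iff_ne_top.2 hK))
    rcases h with h | h
    · exact not_copy_top hq (h 1 one_pos)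
    · refine (N111.ap_main X hX hq hr).2.2 ⟨1 + 1, fun s => ?_⟩
      obtain ⟨P, T, -, -, hT⟩ := h 1 one_pos s
      exact ⟨_, T, hT⟩

end

/-- Sequences of finite dimensional spaces. -/
theorem seq_copy (X : ℕ → Type u) [∀ n, NormedAddCommGroup (X n)] [∀ n, NormedSpace ℝ (X n)]
    [∀ n, FiniteDimensional ℝ (X n)] (hd : Tendsto (fun n => finrank ℝ (X n)) atTop atTop) :
    (∀ m, ∃ᶠ n in atTop, HasCopy (X n) ∞ m (1 + 1) (1 + 1)) ∨
    (∀ m, ∃ᶠ n in atTop, HasCopy (X n) 1 m (1 + 1) (1 + 1)) ∨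
    ∃ C, ∀ m, ∃ᶠ n in atTop, HasCopy (X n) 2 m C C := by
  by_cases c1 : ∀ m, ∃ᶠ n in atTop, HasCopy (X n) ∞ m (1 + 1) (1 + 1)
  · exact Or.inl c1
  by_cases c2 : ∀ m, ∃ᶠ n in atTop, HasCopy (X n) 1 m (1 + 1) (1 + 1)
  · exact Or.inr (Or.inl c2)
  simp only [not_forall, not_frequently] at c1 c2
  obtain ⟨k₁, c1⟩ := c1
  obtain ⟨k₂, c2⟩ := c2
  obtain ⟨C, -, -, H2⟩ := core.{u} k₁ k₂ one_pos one_pos
  refine Or.inr (Or.inr ⟨max C (1 + 1), fun m => Eventually.frequently ?_⟩)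
  obtain ⟨N, hN⟩ := H2 1 one_pos m
  filter_upwards [c1, c2, hd.eventually_ge_atTop N] with n a1 a2 a3
  refine (hN (X n) hasAP_of_finite a1 a2 ?_).mono (le_max_right _ _) (le_max_left _ _)
  rw [← finrank_eq_rank]
  exact_mod_cast a3

/-- Projections of large rank and corank, with slowly growing norms. -/
theorem projections (f : ℕ → ℝ) (hf : Tendsto f atTop atTop) (k : ℕ) : ∃ N : ℕ,
    ∀ (X : Type u) [NormedAddCommGroup X] [NormedSpace ℝ X] [FiniteDimensional ℝ X],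
      N ≤ finrank ℝ X → ∃ P : X →L[ℝ] X, P ∘L P = P ∧ k ≤ finrank ℝ P.range ∧
        finrank ℝ P.range ≤ finrank ℝ (1 - P).range ∧ ‖P‖ ≤ f (finrank ℝ P.range) := by
  obtain ⟨k', hk1, hk2⟩ := ((hf.eventually_ge_atTop (1 + 1)).and (eventually_ge_atTop k)).exists
  obtain ⟨C, -, -, H2⟩ := core.{u} k' k' one_pos one_pos
  obtain ⟨m, hm1, hm2⟩ := ((hf.eventually_ge_atTop C).and (eventually_ge_atTop k)).exists
  obtain ⟨N, hN⟩ := H2 1 one_pos m
  refine ⟨N + 2 * k' + 2 * m, fun X _ _ _ hd => ?_⟩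
  have fin : ∀ (j : ℕ) (c : ℝ), k ≤ j → 2 * j ≤ finrank ℝ X → c ≤ f j →
      (∃ P : X →L[ℝ] X, P ∘L P = P ∧ ‖P‖ ≤ c ∧ finrank ℝ P.range = j) →
      ∃ P : X →L[ℝ] X, P ∘L P = P ∧ k ≤ finrank ℝ P.range ∧
        finrank ℝ P.range ≤ finrank ℝ (1 - P).range ∧ ‖P‖ ≤ f (finrank ℝ P.range) := by
    rintro j c h1 h2 h3 ⟨P, h4, h5, h6⟩
    have h7 := finrank_le_add P
    exact ⟨P, h4, by omega, by omega, by rw [h6]; exact h5.trans h3⟩
  by_cases c1 : HasCopy X ∞ k' (1 + 1) (1 + 1)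
  · exact fin k' _ hk2 (by omega) hk1 c1.finrank_eq
  by_cases c2 : HasCopy X 1 k' (1 + 1) (1 + 1)
  · exact fin k' _ hk2 (by omega) hk1 c2.finrank_eq
  refine fin m C hm2 (by omega) hm1 (hN X hasAP_of_finite c1 c2 ?_).finrank_eq
  rw [← finrank_eq_rank]
  exact_mod_cast (by omega : N ≤ finrank ℝ X)

end Vale.Agent.N111L
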